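import Vale.Agent.P095.Nonunital.FA
import Vale.Agent.P095.Tracial.Main

/-!
# P095: equivariant uniform Gamma for an abstract system, conditioned form

The assembly of `Vale.Agent.P095.Tracial.Main` with `F_ω(A)` replaced by a `Sys G E`; the conclusion
holds for every trace of the separable invariant subalgebra carrying the element.
-/

open Filter Topology
open Vale.P101
open Vale.P095.Tracial hiding Sub exists_copies exists_payload exists_sub_of_countable payOf
  payOf_map exists_almost_invariant exists_almost_invariant_model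

noncomputable section

namespace Vale.P095.Nonunital

variable {G : Type*} [Group G] {E : Type*} [CStarAlgebra E] {sys : Sys G E}

/-- A countable set lies in a closed separable invariant subalgebra. -/
theorem exists_sub_of_countable (sys : Sys G E) [Countable G] (P : Set E)
    (hP : P.Countable) : ∃ S : Sub sys, P ⊆ (S.S : Set E) := by
  obtain ⟨S, hcl, hsep, hinv, hPS⟩ := exists_invariant_subalgebra sys.act sys.mul sys.one P hP
  exact ⟨⟨S, hcl, hsep, hinv⟩, hPS⟩

/-- The payload: a balanced approximate symmetry. -/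
theorem exists_payload (sys : Sys G E) [Countable G] (h : NoCharacters E) {δ : ℝ}
    (hδ : 0 < δ) :
    ∃ (S : Sub sys) (s : S.S), IsSelfAdjoint s ∧ ‖s‖ ≤ 1 ∧
      ∀ t : S.S →ₗ[ℝ] ℝ, IsTrace t → t s = 0 ∧ t (1 - s * s) ≤ δ * t 1 := by
  have hfull : Full (commSet E) := full_of_noCharacters h
  obtain ⟨y, hy, hfy⟩ := exists_full_square_zero sys.copyProp hfull
  obtain ⟨n, u, c, v, hc, hsum⟩ := Full.exists_sum hfy
  obtain ⟨S, hS⟩ := exists_sub_of_countable sys ({y} ∪ Set.range u ∪ Set.range v)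
    (((Set.finite_singleton y).union (Set.finite_range u)).union (Set.finite_range v)).countable
  let y' : S.S := ⟨y, hS (Or.inl (Or.inl rfl))⟩
  let u' : Fin n → S.S := fun i => ⟨u i, hS (Or.inl (Or.inr ⟨i, rfl⟩))⟩
  let v' : Fin n → S.S := fun i => ⟨v i, hS (Or.inr ⟨i, rfl⟩)⟩
  obtain ⟨X, hX, c₀, hc₀, hXt⟩ := exists_balanced (y := y') (u := u') (v := v')
    (Subtype.ext hy) (Subtype.ext (by
      simp only [AddSubmonoidClass.coe_finsetSum, OneMemClass.coe_one, MulMemClass.coe_mul, u', v',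
        y']
      simp only [Set.mem_singleton_iff] at hc
      simp only [hc] at hsum
      exact hsum))
  set γ : ℝ := 1 / (2 * (‖X‖ + 1)) with hγ
  have hγ0 : 0 < γ := by positivity
  have hγX : γ * ‖X‖ ≤ 1 / 2 := by
    rw [hγ, div_mul_eq_mul_div, one_mul, div_le_iff₀ (by positivity)]
    linarith [norm_nonneg X]
  obtain ⟨T, hT⟩ := exists_nat_gt (4 / (c₀ * γ ^ 2 * δ))
  have hT0 : 0 < T := by
    have h4 : (0 : ℝ) < 4 / (c₀ * γ ^ 2 * δ) := by positivity
    exact_mod_cast h4.trans hT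
  obtain ⟨S', π, hπ, -⟩ := exists_copies S (Fin T)
  let π' : ℕ → (S.S →⋆ₐ[ℂ] S'.S) := fun i => if hi : i < T then π ⟨i, hi⟩ else π ⟨0, hT0⟩
  have hπ' : ∀ i j, i < T → j < T → i ≠ j → ∀ a b, Commute (π' i a) (π' j b) := by
    intro i j hi hj hij a b
    simp only [π', dif_pos hi, dif_pos hj]
    exact hπ _ _ (fun he => hij (Fin.mk.inj he)) a b
  have hbal : ∀ t : S.S →ₗ[ℝ] ℝ, IsTrace t → t X = 0 := fun t ht => (hXt t ht).1
  obtain ⟨hs, hs1⟩ := sat_props hγ0 hγX hX hπ'
  refine ⟨S', sat γ π' X T, hs, hs1, fun t ht => ⟨sat_balanced hγ0 hγX hX hπ' hbal t ht, ?_⟩⟩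
  refine (sat_defect hc₀ hγ0 hγX hX hT0 hπ' hbal (fun τ hτ => (hXt τ hτ).2) t ht).trans ?_
  let _ := CStarAlgebra.spectralOrder S'.S
  have _ := CStarAlgebra.spectralOrderedRing S'.S
  refine mul_le_mul_of_nonneg_right ?_ ht.one_nonneg
  rw [div_lt_iff₀ (by positivity)] at hT
  rw [div_le_iff₀ (by positivity)]
  nlinarith

theorem Sub.act_mul (S : Sub sys) (g h : G) (x : S.S) :
    S.act (g * h) x = S.act g (S.act h x) :=
  Subtype.ext (sys.mul g h (x : E))

section Positions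

variable {S S' : Sub sys} {δ : ℝ} {J : ℕ}

/-- The payloads obtained from commuting equivariant copies. -/
def payOf (π : {k // k ∈ positions J} → (S.S →⋆ₐ[ℂ] S'.S))
    (hπ : ∀ i j, i ≠ j → ∀ a b, Commute (π i a) (π j b)) (x : S.S) (hx : IsSelfAdjoint x)
    (hx1 : ‖x‖ ≤ 1)
    (hbal : ∀ t : S.S →ₗ[ℝ] ℝ, IsTrace t → t x = 0 ∧ t (1 - x * x) ≤ δ * t 1) :
    Pay G S'.S δ J where
  s k g := if h : k ∈ positions J then π ⟨k, h⟩ (S.act g x) else 0
  D k := if h : k ∈ positions J then Set.range (π ⟨k, h⟩) else ∅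
  mem k g hk := by
    rw [dif_pos (mem_positions hk), dif_pos (mem_positions hk)]
    exact ⟨_, rfl⟩
  sa k g := by
    split_ifs
    · exact (hx.map _).map _
    · exact IsSelfAdjoint.zero _
  norm_le k g := by
    split_ifs
    · exact ((NonUnitalStarAlgHom.norm_apply_le _ _).trans
        (NonUnitalStarAlgHom.norm_apply_le _ _)).trans hx1
    · simp
  comm k k' hk hk' hne a ha b hb := by
    rw [dif_pos (mem_positions hk)] at ha
    rw [dif_pos (mem_positions hk')] at hb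
    obtain ⟨a, rfl⟩ := ha
    obtain ⟨b, rfl⟩ := hb
    exact hπ _ _ (fun h => hne (Subtype.mk.injEq .. |>.mp h)) a b
  bal τ hτ k g M hk hM := by
    rw [dif_pos (mem_positions hk)]
    rw [dif_pos (mem_positions hk)] at hM
    refine hτ.balanced_mul _ (hx.map _) (fun t ht => ?_) fun b => hM _ ⟨b, rfl⟩
    exact (hbal _ (ht.pull (S.act g))).1
  sym τ hτ k g M hk hM := by
    rw [dif_pos (mem_positions hk)]
    rw [dif_pos (mem_positions hk)] at hM
    have h := (hbal _ (((hτ.weight _ fun b => hM _ ⟨b, rfl⟩).pull (S.act g)))).2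
    simp only [pullLin_apply, weightLin_apply, map_sub (S.act g), map_one, map_mul (S.act g), mul_one,
      map_sub (π ⟨k, mem_positions hk⟩), map_mul (π ⟨k, mem_positions hk⟩)] at h
    exact h

theorem payOf_map (π : {k // k ∈ positions J} → (S.S →⋆ₐ[ℂ] S'.S))
    (hπ : ∀ i j, i ≠ j → ∀ a b, Commute (π i a) (π j b)) (x : S.S) (hx : IsSelfAdjoint x)
    (hx1 : ‖x‖ ≤ 1)
    (hbal : ∀ t : S.S →ₗ[ℝ] ℝ, IsTrace t → t x = 0 ∧ t (1 - x * x) ≤ δ * t 1)
    (heq : ∀ i g b, π i (S.act g b) = S'.act g (π i b)) (g : G) (k : List Bool) (h : G)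
    (hk : k.length < J) :
    S'.act g ((payOf π hπ x hx hx1 hbal).s k h) = (payOf π hπ x hx hx1 hbal).s k (g * h) := by
  simp only [payOf, dif_pos (mem_positions hk)]
  rw [← heq, ← Sub.act_mul]

end Positions

variable [Countable G]

theorem exists_almost_invariant_sub (sys : Sys G E) (hchar : NoCharacters E) (hG : IsFolner G)
    (Sg : Finset G) (ε : ℝ) (hε : 0 < ε) :
    ∃ (S : Sub sys) (u : S.S), IsSelfAdjoint u ∧ ‖u‖ ≤ 1 ∧
      ∀ t : S.S →ₗ[ℝ] ℝ, IsTrace t → t u = 0 ∧ t (1 - u * u) ≤ ε * t 1 ∧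
        ∀ g ∈ Sg, t ((S.act g u - u) * (S.act g u - u)) ≤ ε * t 1 := by
  classical
  -- constants
  set R : ℝ := 8 / ε with hR
  have hR0 : 0 < R := by positivity
  set Cst : ℝ := Real.exp (16 * (R + 1)) * (16 * (R + 1)) with hC
  have hC0 : 0 < Cst := by positivity
  set e₀ : ℝ := ε / Cst with he₀
  have he₀0 : 0 < e₀ := by positivity
  set η : ℝ := (e₀ / 300) ^ 2 / 2 with hη
  obtain ⟨F, hF, hFS⟩ := hG Sg η (by positivity)
  set J : ℕ := ⌈100 * Real.sqrt F.card⌉₊ + 1 with hJ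
  have hJ0 : 0 < J := Nat.succ_pos _
  have hJF : 100 * Real.sqrt F.card ≤ J := by
    refine (Nat.le_ceil _).trans ?_
    exact_mod_cast Nat.le_succ _
  set δ : ℝ := ((1 : ℝ) / (2 * J)) ^ 2 with hδ
  have hδ0 : 0 < δ := by positivity
  have hδJ : (1 + Real.sqrt δ) ^ J ≤ 2 := by
    have hJR : (0 : ℝ) < J := by exact_mod_cast hJ0
    have hd : Real.sqrt δ = 1 / (2 * J) := Real.sqrt_sq (by positivity)
    calc (1 + Real.sqrt δ) ^ J ≤ Real.exp (1 / (2 * J)) ^ J := by
          rw [hd]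
          refine pow_le_pow_left₀ (by positivity) ?_ _
          linarith [Real.add_one_le_exp (1 / (2 * (J : ℝ)))]
      _ = Real.exp (1 / 2) := by
          rw [← Real.exp_nat_mul]; congr 1; field_simp
      _ ≤ 2 := by
          rw [← Real.le_log_iff_exp_le (by norm_num)]
          have := Real.log_two_gt_d9
          norm_num at this ⊢
          linarith
  -- payload, copies, the element `X`
  obtain ⟨S, x, hx, hx1, hxt⟩ := exists_payload sys hchar hδ0
  obtain ⟨S', π, hπ, heq⟩ := exists_copies S {k // k ∈ positions J}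
  let P := payOf π hπ x hx hx1 hxt
  letI : PartialOrder S'.S := CStarAlgebra.spectralOrder _
  haveI : StarOrderedRing S'.S := CStarAlgebra.spectralOrderedRing _
  set X : S'.S := P.X F with hX
  have hXsa : IsSelfAdjoint X := P.X_isSelfAdjoint F
  have hXbal : ∀ t : S'.S →ₗ[ℝ] ℝ, IsTrace t → t X = 0 := fun t ht => P.X_balanced ht hF
  have hXlow : ∀ t : S'.S →ₗ[ℝ] ℝ, IsTrace t → 1 / 2 * t 1 ≤ t (X * X) :=
    fun t ht => P.le_X_sq ht hF hJF hδ0.le hδJ
  have hXup : ∀ t : S'.S →ₗ[ℝ] ℝ, IsTrace t → t (X * X) ≤ 1 * t 1 :=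
    fun t ht => by rw [one_mul]; exact P.X_sq_le ht hF hJ0
  have hXst : ∀ g ∈ Sg, ∀ t : S'.S →ₗ[ℝ] ℝ, IsTrace t →
      t ((S'.act g X - X) * (S'.act g X - X)) ≤ e₀ * t 1 := by
    intro g hg t ht
    have hmap : S'.act g X = P.X (F.map (Equiv.mulLeft g).toEmbedding) :=
      P.map_X (S'.act g) (Equiv.mulLeft g) (fun k h hk => payOf_map π hπ x hx hx1 hxt heq g k h hk) F
    set F' : Finset G := F.map (Equiv.mulLeft g).toEmbedding with hF'
    have hcard : F'.card = F.card := Finset.card_map _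
    have hle := P.X_sub_le ht hF hcard hJ0
    rw [hmap, hX]
    rw [← neg_mul_neg, neg_sub]
    refine hle.trans (mul_le_mul_of_nonneg_right ?_ (one_nonneg_of ht))
    have hd : (((F \ F').card + (F' \ F).card : ℕ) : ℝ) / F.card ≤ 2 * η := by
      have h1 := hFS g hg
      have h2 : F.image (g * ·) = F' := by
        rw [hF', Finset.map_eq_image]; rfl
      rw [h2] at h1
      have h3 : (F \ F').card = (F' \ F).card := Finset.card_sdiff_comm hcard.symm
      rw [h3, div_le_iff₀ (by exact_mod_cast hF.card_pos)]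
      push_cast
      linarith
    calc 300 * Real.sqrt _ ≤ 300 * Real.sqrt (2 * η) := by gcongr
      _ = e₀ := by
          rw [hη, show (2 : ℝ) * ((e₀ / 300) ^ 2 / 2) = (e₀ / 300) ^ 2 by ring,
            Real.sqrt_sq (by positivity)]
          ring
  -- saturation
  set γ : ℝ := 1 / (2 * (‖X‖ + 1)) with hγ
  have hn : 0 ≤ ‖X‖ := norm_nonneg _
  have hγ0 : 0 < γ := by positivity
  have hγX : γ * ‖X‖ ≤ 1 / 2 := by
    rw [hγ, div_mul_eq_mul_div, one_mul, div_le_iff₀ (by positivity)]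
    linarith
  have hγ1 : γ ^ 2 ≤ 1 := by
    rw [hγ, div_pow, one_pow, div_le_one (by positivity)]
    nlinarith
  set T : ℕ := ⌈R / γ ^ 2⌉₊ with hT
  have hT0 : 0 < T := Nat.ceil_pos.2 (by positivity)
  have hTlo : R ≤ γ ^ 2 * T := by
    have := (div_le_iff₀ (by positivity : (0 : ℝ) < γ ^ 2)).1 (Nat.le_ceil (R / γ ^ 2))
    linarith
  have hThi : γ ^ 2 * T ≤ R + 1 := by
    have h := (Nat.ceil_lt_add_one (a := R / γ ^ 2) (by positivity)).le
    calc γ ^ 2 * T ≤ γ ^ 2 * (R / γ ^ 2 + 1) := by gcongr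
      _ = R + γ ^ 2 := by field_simp
      _ ≤ R + 1 := by linarith
  obtain ⟨S'', ρ, hρ, hρeq⟩ := exists_copies S' (Fin T)
  let ρ' : ℕ → (S'.S →⋆ₐ[ℂ] S''.S) := fun i => if h : i < T then ρ ⟨i, h⟩ else ρ ⟨0, hT0⟩
  have hρ' : ∀ i j, i < T → j < T → i ≠ j → ∀ a b, Commute (ρ' i a) (ρ' j b) := by
    intro i j hi hj hij a b
    simp only [ρ', dif_pos hi, dif_pos hj]
    exact hρ _ _ (fun h => hij (congrArg Fin.val h)) a b
  set u : S''.S := sat γ ρ' X T with hu
  obtain ⟨husa, hun⟩ := sat_props hγ0 hγX hXsa hρ'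
  refine ⟨S'', u, husa, hun, fun t ht => ?_⟩
  refine ⟨sat_balanced hγ0 hγX hXsa hρ' hXbal _ ht, ?_, fun g hg => ?_⟩
  · have h : t (1 - u * u) ≤ 4 / (1 / 2 * γ ^ 2 * T) * t 1 :=
      sat_defect (by norm_num) hγ0 hγX hXsa hT0 hρ' hXbal hXlow _ ht
    refine h.trans (mul_le_mul_of_nonneg_right ?_ (one_nonneg_of ht))
    rw [div_le_iff₀ (by positivity)]
    have : ε * R = 8 := by rw [hR]; field_simp
    nlinarith
  · have h : t ((S''.act g u - u) * (S''.act g u - u)) ≤
        Real.exp (16 * 1 * γ ^ 2 * T) * (16 * γ ^ 2 * T * e₀) * t 1 :=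
      sat_stable he₀0.le zero_le_one hγ0 hγX hXsa hρ' hXbal hXup (S'.act g) (S''.act g)
        (fun i hi b => by simp only [ρ', dif_pos hi]; exact (hρeq _ g b).symm) (hXst g hg) _ ht
    refine h.trans (mul_le_mul_of_nonneg_right ?_ (one_nonneg_of ht))
    calc Real.exp (16 * 1 * γ ^ 2 * T) * (16 * γ ^ 2 * T * e₀)
        ≤ Real.exp (16 * (R + 1)) * (16 * (R + 1) * e₀) := by
          rw [show 16 * 1 * γ ^ 2 * (T : ℝ) = 16 * (γ ^ 2 * T) by ring,
            show 16 * γ ^ 2 * (T : ℝ) = 16 * (γ ^ 2 * T) by ring]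
          gcongr
      _ = ε := by rw [he₀, hC]; field_simp

end Vale.P095.Nonunital
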