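import Vale.Agent.P101.Main
import Vale.Agent.P095.Tracial.TraceIneq
import Vale.Agent.P095.Tracial.Reindex

/-!
# P095: abstract systems with equivariant copies

A `Sys G E` is an action with `EqCopyProp`; `Sub` and `exists_copies` have the shapes of
`Vale.Agent.P095.Tracial.Copies`.
-/

open Vale.P101

namespace Vale.P095.Nonunital

/-- An action with equivariant copies. -/
structure Sys (G : Type*) [Group G] (E : Type*) [CStarAlgebra E] where
  /-- The action. -/
  act : G → E →⋆ₐ[ℂ] E
  one : ∀ x, act 1 x = x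
  mul : ∀ g h x, act (g * h) x = act g (act h x)
  copies : EqCopyProp act

variable {G : Type*} [Group G] {E : Type*} [CStarAlgebra E]

theorem Sys.continuous_act (sys : Sys G E) (g : G) : Continuous (sys.act g) :=
  AddMonoidHomClass.continuous_of_bound (sys.act g) 1 fun x => by
    rw [one_mul]; exact NonUnitalStarAlgHom.norm_apply_le (sys.act g) x

/-- The characterless version of the copy property. -/
theorem Sys.copyProp [Countable G] (sys : Sys G E) : CopyProp E := by
  intro s t hs ht
  let s' : Set E := ⋃ g, sys.act g '' s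
  have hs' : s'.Countable := Set.countable_iUnion fun g => hs.countable.image _
  have hinv : ∀ g, ∀ b ∈ s', sys.act g b ∈ s' := fun g b hb => by
    obtain ⟨h, d, hd, rfl⟩ := Set.mem_iUnion.1 hb
    exact Set.mem_iUnion.2 ⟨g * h, d, hd, sys.mul g h d⟩
  obtain ⟨ρ, h1, -, -⟩ := sys.copies s' t hs' ht.countable hinv
  have hle : gen s ≤ gen s' := StarAlgebra.adjoin_le fun b hb =>
    StarAlgebra.subset_adjoin ℂ s' (Set.mem_iUnion.2 ⟨1, b, hb, sys.one b⟩)
  exact ⟨ρ.comp (StarSubalgebra.inclusion hle), fun b c hc => h1 _ c hc⟩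

/-- Closed separable invariant subalgebras. -/
structure Sub (sys : Sys G E) where
  /-- The subalgebra. -/
  S : StarSubalgebra ℂ E
  closed : IsClosed (S : Set E)
  sep : TopologicalSpace.IsSeparable (S : Set E)
  inv : ∀ g, ∀ x ∈ S, sys.act g x ∈ S

variable {sys : Sys G E}

instance (S : Sub sys) : IsClosed (S.S : Set E) := S.closed

noncomputable instance Sub.cstarAlgebra (S : Sub sys) : CStarAlgebra S.S :=
  StarSubalgebra.cstarAlgebra (A := E) S.S

/-- The restricted action. -/
noncomputable def Sub.act (S : Sub sys) (g : G) : S.S →⋆ₐ[ℂ] S.S :=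
  ((sys.act g).comp S.S.subtype).codRestrict S.S fun x => S.inv g x x.2

theorem Sub.act_val (S : Sub sys) (g : G) (x : S.S) :
    (S.act g x : E) = sys.act g x := rfl

/-- A norm decreasing homomorphism on a dense subalgebra extends to the closed algebra. -/
theorem exists_extend {S : StarSubalgebra ℂ (E)} {s : Set (E)}
    (hsS : gen s ≤ S) (hd : ∀ x ∈ S, x ∈ closure (gen s : Set (E)))
    (ρ : gen s →⋆ₐ[ℂ] E) (hρ : ∀ b, ‖ρ b‖ ≤ ‖(b : E)‖) :
    ∃ σ : S →⋆ₐ[ℂ] E, Continuous σ ∧
      ∀ b : gen s, σ ⟨b, hsS b.2⟩ = ρ b := by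
  let i : gen s →⋆ₐ[ℂ] S := StarSubalgebra.inclusion hsS
  have hi : DenseRange i := by
    intro x
    rw [closure_subtype, ← Set.range_comp]
    refine closure_mono ?_ (hd x x.2)
    intro y hy
    exact ⟨⟨y, hy⟩, rfl⟩
  let f : gen s →ₗ[ℂ] E := ρ.toAlgHom.toLinearMap
  let e : gen s →ₗ[ℂ] S := i.toAlgHom.toLinearMap
  let σ₀ : S →L[ℂ] E := f.extendOfNorm e
  have hb : ∃ C, ∀ x, ‖f x‖ ≤ C * ‖e x‖ := ⟨1, fun x => by rw [one_mul]; exact hρ x⟩
  have he : ∀ b, σ₀ (i b) = ρ b := fun b => LinearMap.extendOfNorm_eq hi hb b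
  refine ⟨{ toFun := σ₀
            map_one' := by rw [← map_one i, he, map_one]
            map_mul' := fun x y => ?_
            map_zero' := map_zero σ₀
            map_add' := map_add σ₀
            commutes' := fun c => by rw [← AlgHomClass.commutes i, he, AlgHomClass.commutes]
            map_star' := fun x => ?_ }, σ₀.continuous, he⟩
  · refine hi.induction_on₂ (p := fun x y => σ₀ (x * y) = σ₀ x * σ₀ y) ?_ ?_ x y
    · exact isClosed_eq (σ₀.continuous.comp continuous_mul)
        ((σ₀.continuous.comp continuous_fst).mul (σ₀.continuous.comp continuous_snd))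
    · intro a b
      rw [← map_mul, he, he, he, map_mul]
  · show σ₀ (star x) = star (σ₀ x)
    refine hi.induction_on (p := fun x => σ₀ (star x) = star (σ₀ x)) x ?_ ?_
    · exact isClosed_eq (σ₀.continuous.comp continuous_star) σ₀.continuous.star
    · intro a
      rw [← map_star, he, he, map_star]

variable [Countable G]

/-- Finitely many pairwise commuting equivariant copies of a countable invariant set. -/
theorem exists_family (sys : Sys G E) {s : Set (E)}
    (hs : s.Countable) (hinv : ∀ g, ∀ b ∈ s, sys.act g b ∈ s) (n : ℕ) :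
    ∃ ρ : Fin n → (gen s →⋆ₐ[ℂ] E),
      (Pairwise fun i j => ∀ b c, Commute (ρ i b) (ρ j c)) ∧
      (∀ i b, ‖ρ i b‖ ≤ ‖(b : E)‖) ∧
      ∀ i (g : G) (b c : gen s), (c : E) = sys.act g b → ρ i c = sys.act g (ρ i b) := by
  induction n with
  | zero => exact ⟨Fin.elim0, fun i => i.elim0, fun i => i.elim0, fun i => i.elim0⟩
  | succ n ih =>
    obtain ⟨ρ, hρ, hn, he⟩ := ih
    let pre : Set (gen s) := {b | (b : E) ∈ s}
    have hpre : pre.Countable := hs.preimage Subtype.val_injective
    let t : Set (E) :=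
      ⋃ i, (fun b => ρ i b) '' pre ∪ (fun b => star (ρ i b)) '' pre
    have ht : t.Countable :=
      Set.countable_iUnion fun i => (hpre.image _).union (hpre.image _)
    obtain ⟨σ, hσ, hσn, hσe⟩ :=
      sys.copies s t hs ht hinv
    have key : ∀ i b c, Commute (σ b) (ρ i c) := fun i b c =>
      commute_range_of_gen (ρ i) (fun d hd =>
        ⟨hσ b _ (Set.mem_iUnion.2 ⟨i, Or.inl ⟨d, hd, rfl⟩⟩),
          hσ b _ (Set.mem_iUnion.2 ⟨i, Or.inr ⟨d, hd, rfl⟩⟩)⟩) c
    refine ⟨(Fin.cons σ ρ : Fin (n + 1) → (gen s →⋆ₐ[ℂ] E)), fun i j hij b c => ?_,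
      fun i b => ?_, fun i g b c h => ?_⟩
    · induction i using Fin.cases with
      | zero =>
        induction j using Fin.cases with
        | zero => exact absurd rfl hij
        | succ j => exact key j b c
      | succ i =>
        induction j using Fin.cases with
        | zero => exact (key i c b).symm
        | succ j => exact hρ (fun h => hij (congrArg Fin.succ h)) b c
    · induction i using Fin.cases with
      | zero => exact hσn b
      | succ i => exact hn i b
    · induction i using Fin.cases with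
      | zero => exact hσe g b c h
      | succ i => exact he i g b c h

/-- Any finitely many pairwise commuting equivariant copies, inside a new `Sub`. -/
theorem exists_copies (S : Sub sys) (ι : Type*)
    [Finite ι] :
    ∃ (S' : Sub sys) (π : ι → (S.S →⋆ₐ[ℂ] S'.S)),
      (∀ i j, i ≠ j → ∀ a b, Commute (π i a) (π j b)) ∧
      ∀ i g b, π i (S.act g b) = S'.act g (π i b) := by
  -- a countable invariant dense set of generators
  obtain ⟨D, hDS, hD, hSD⟩ := S.sep.exists_countable_dense_subset
  let s : Set (E) := ⋃ g : G, sys.act g '' D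
  have hs : s.Countable := Set.countable_iUnion fun g => hD.image _
  have hinv : ∀ g, ∀ b ∈ s, sys.act g b ∈ s := fun g b hb => by
    obtain ⟨h, d, hd, rfl⟩ := Set.mem_iUnion.1 hb
    exact Set.mem_iUnion.2 ⟨g * h, d, hd, sys.mul g h d⟩
  have hsS : gen s ≤ S.S := StarAlgebra.adjoin_le fun b hb => by
    obtain ⟨h, d, hd, rfl⟩ := Set.mem_iUnion.1 hb
    exact S.inv h d (hDS hd)
  have hdense : ∀ x ∈ S.S, x ∈ closure (gen s : Set (E)) := fun x hx =>
    closure_mono (fun d hd => (StarAlgebra.subset_adjoin ℂ s)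
      (Set.mem_iUnion.2 ⟨1, d, hd, sys.one d⟩)) (hSD hx)
  have hginv : ∀ g, ∀ b ∈ gen s, sys.act g b ∈ gen s := fun g b hb => by
    have : sys.act g b ∈ (gen s).map (sys.act g) := ⟨b, hb, rfl⟩
    rw [StarAlgHom.map_adjoin] at this
    refine StarAlgebra.adjoin_le ?_ this
    rintro _ ⟨y, hy, rfl⟩
    exact StarAlgebra.subset_adjoin ℂ s (hinv g y hy)
  obtain ⟨N, ⟨e⟩⟩ := Finite.exists_equiv_fin ι
  obtain ⟨ρ, hρ, hn, heq⟩ := exists_family sys hs hinv N
  choose σ hσc hσ using fun i => exists_extend hsS hdense (ρ i) (hn i)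
  have hdi : DenseRange fun b : gen s => (⟨b, hsS b.2⟩ : S.S) := by
    intro x
    rw [closure_subtype, ← Set.range_comp]
    refine closure_mono ?_ (hdense x x.2)
    intro y hy
    exact ⟨⟨y, hy⟩, rfl⟩
  have hcomm : ∀ i j, i ≠ j → ∀ a b, Commute (σ i a) (σ j b) := fun i j hij a b => by
    refine hdi.induction_on₂ (p := fun a b => Commute (σ i a) (σ j b)) ?_ ?_ a b
    · exact isClosed_eq (((hσc i).comp continuous_fst).mul ((hσc j).comp continuous_snd))
        (((hσc j).comp continuous_snd).mul ((hσc i).comp continuous_fst))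
    · intro a b
      rw [hσ, hσ]
      exact hρ hij a b
  have hequiv : ∀ i g b, σ i (S.act g b) = sys.act g (σ i b) := fun i g b => by
    refine hdi.induction_on (p := fun b => σ i (S.act g b) = sys.act g (σ i b)) b ?_ ?_
    · refine isClosed_eq ((hσc i).comp ?_) ((sys.continuous_act g).comp (hσc i))
      exact ((sys.continuous_act g).comp continuous_subtype_val).subtype_mk _
    · intro a
      rw [hσ, show S.act g ⟨a, hsS a.2⟩ =
        ⟨(⟨sys.act g a, hginv g a a.2⟩ : gen s), hsS (hginv g a a.2)⟩ from rfl, hσ]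
      exact heq i g a _ rfl
  -- the new subalgebra
  let u : Set (E) := ⋃ i, ρ i '' {b : gen s | (b : E) ∈ s}
  have hu : u.Countable :=
    Set.countable_iUnion fun i => (hs.preimage Subtype.val_injective).image _
  let T : StarSubalgebra ℂ (E) :=
    (StarAlgebra.adjoin ℂ u).topologicalClosure
  have hTsep : TopologicalSpace.IsSeparable (T : Set (E)) :=
    (isSeparable_adjoin (E := E) hu).closure
  have hTcl : IsClosed (T : Set (E)) := isClosed_closure
  have hTmem : ∀ x ∈ StarAlgebra.adjoin ℂ u, x ∈ T := fun x hx => subset_closure hx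
  have hTinv : ∀ g, ∀ x ∈ T, sys.act g x ∈ T := fun g x hx => by
    refine map_mem_closure (sys.continuous_act g) (s := (StarAlgebra.adjoin ℂ u : Set (E))) hx fun y hy => ?_
    have : sys.act g y ∈ (StarAlgebra.adjoin ℂ u).map (sys.act g) := ⟨y, hy, rfl⟩
    rw [StarAlgHom.map_adjoin] at this
    refine StarAlgebra.adjoin_le ?_ this
    rintro _ ⟨z, hz, rfl⟩
    obtain ⟨i, b, hb, rfl⟩ := Set.mem_iUnion.1 hz
    refine StarAlgebra.subset_adjoin ℂ u (Set.mem_iUnion.2
      ⟨i, ⟨sys.act g b, hginv g b b.2⟩, hinv g b hb, ?_⟩)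
    exact heq i g b _ rfl
  let S' : Sub sys := ⟨T, hTcl, hTsep, hTinv⟩
  have hmemT : ∀ i a, σ i a ∈ T := fun i a => by
    refine hdi.induction_on (p := fun a => σ i a ∈ T) a ?_ ?_
    · exact hTcl.preimage (hσc i)
    · intro b
      rw [hσ]
      refine hTmem _ ?_
      obtain ⟨b, hb⟩ := b
      induction hb using StarAlgebra.adjoin_induction with
      | mem x hx =>
        exact StarAlgebra.subset_adjoin ℂ u (Set.mem_iUnion.2 ⟨i, ⟨x, _⟩, hx, rfl⟩)
      | algebraMap r =>
        rw [show (⟨_, _⟩ : gen s) = algebraMap ℂ (gen s) r from rfl, AlgHomClass.commutes]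
        exact algebraMap_mem _ r
      | add x y hx hy ihx ihy =>
        rw [show (⟨x + y, _⟩ : gen s) = ⟨x, hx⟩ + ⟨y, hy⟩ from rfl, map_add]
        exact add_mem ihx ihy
      | mul x y hx hy ihx ihy =>
        rw [show (⟨x * y, _⟩ : gen s) = ⟨x, hx⟩ * ⟨y, hy⟩ from rfl, map_mul]
        exact mul_mem ihx ihy
      | star x hx ih =>
        rw [show (⟨star x, _⟩ : gen s) = star ⟨x, hx⟩ from rfl, map_star]
        exact star_mem ih
  refine ⟨S', fun i => (σ (e i)).codRestrict T fun a => hmemT (e i) a, fun i j hij a b => ?_,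
    fun i g b => ?_⟩
  · exact Subtype.ext (hcomm _ _ (e.injective.ne hij) a b).eq
  · exact Subtype.ext (hequiv (e i) g b)

end Vale.P095.Nonunital
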