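import Vale.Agent.P095.Nonunital.RelF
import Vale.Agent.P095.Nonunital.System

/-!
# P095: `F(A)` for a separable, not necessarily unital, `A`

`FA A ω = (Ã_ω ∩ Ã') / Ann(A)` with `Ã = Unitization ℂ A`: Kirchberg's central sequence algebra.
-/

open Filter

namespace Vale.P095.Nonunital

open Vale.P101

noncomputable section

variable (A : Type*) [NonUnitalCStarAlgebra A]

instance separable_unitization [TopologicalSpace.SeparableSpace A] :
    TopologicalSpace.SeparableSpace (Unitization ℂ A) :=
  (Unitization.uniformEquivProd (𝕜 := ℂ) (A := A)).toHomeomorph.symm.surjective.denseRange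
    |>.separableSpace (Unitization.uniformEquivProd (𝕜 := ℂ) (A := A)).toHomeomorph.symm.continuous

variable {A} {G : Type*} [Group G]

/-- A nonunital star automorphism as a star homomorphism. -/
def autHom (f : A ≃⋆ₐ[ℂ] A) : A →⋆ₙₐ[ℂ] A :=
  { toFun := f
    map_smul' := fun c a => map_smul f c a
    map_zero' := map_zero f
    map_add' := map_add f
    map_mul' := map_mul f
    map_star' := map_star f }

theorem autHom_apply (f : A ≃⋆ₐ[ℂ] A) (a : A) : autHom f a = f a := rfl

theorem autHom_comp (f g : A ≃⋆ₐ[ℂ] A) : autHom (f * g) = (autHom f).comp (autHom g) := by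
  ext a; rfl

/-- The extension of an automorphism to the unitization. -/
def extAut (f : A ≃⋆ₐ[ℂ] A) : Unitization ℂ A ≃⋆ₐ[ℂ] Unitization ℂ A :=
  StarAlgEquiv.ofStarAlgHom (Unitization.starMap (autHom f))
    (Unitization.starMap (autHom f.symm))
    (by rw [← Unitization.starMap_comp, show (autHom f.symm).comp (autHom f) =
          NonUnitalStarAlgHom.id ℂ A from NonUnitalStarAlgHom.ext f.symm_apply_apply,
          Unitization.starMap_id])
    (by rw [← Unitization.starMap_comp, show (autHom f).comp (autHom f.symm) =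
          NonUnitalStarAlgHom.id ℂ A from NonUnitalStarAlgHom.ext f.apply_symm_apply,
          Unitization.starMap_id])

theorem extAut_apply (f : A ≃⋆ₐ[ℂ] A) (x : Unitization ℂ A) :
    extAut f x = Unitization.starMap (autHom f) x := rfl

/-- The action extended to the unitization. -/
def extAction (α : G →* (A ≃⋆ₐ[ℂ] A)) :
    G →* (Unitization ℂ A ≃⋆ₐ[ℂ] Unitization ℂ A) where
  toFun g := extAut (α g)
  map_one' := StarAlgEquiv.ext fun x => by
    rw [extAut_apply, map_one, show autHom (1 : A ≃⋆ₐ[ℂ] A) = NonUnitalStarAlgHom.id ℂ A from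
      NonUnitalStarAlgHom.ext fun a => rfl, Unitization.starMap_id]
    rfl
  map_mul' g h := StarAlgEquiv.ext fun x => by
    rw [extAut_apply, map_mul, autHom_comp, Unitization.starMap_comp]
    rfl

theorem extAction_inr (α : G →* (A ≃⋆ₐ[ℂ] A)) (g : G) (a : A) :
    extAction α g (Unitization.inr a) = Unitization.inr (α g a) := by
  show Unitization.starMap (autHom (α g)) (Unitization.inr a) = _
  rw [Unitization.starMap_inr]
  rfl

variable (A) in
/-- The copy of `A` in its unitization. -/
def inrSet : Set (Unitization ℂ A) := Set.range Unitization.inr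

theorem inv_inrSet (α : G →* (A ≃⋆ₐ[ℂ] A)) : InvSet (extAction α) (inrSet A) := by
  rintro g _ ⟨a, rfl⟩
  exact ⟨α g a, (extAction_inr α g a).symm⟩

variable (A) in
/-- Kirchberg's central sequence algebra `F(A)`. -/
abbrev FA (ω : Ultrafilter ℕ) : Type _ := RelF (Unitization ℂ A) ω (inrSet A)

variable [Countable G] [TopologicalSpace.SeparableSpace A] {ω : Ultrafilter ℕ}

/-- `F(A)` with the induced action. -/
def sysFA (hω : (ω : Filter ℕ) ≤ cofinite) (α : G →* (A ≃⋆ₐ[ℂ] A)) : Sys G (FA A ω) where
  act g := relAct (extAction α) (inv_inrSet α) g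
  one := relAct_one (extAction α) (inv_inrSet α)
  mul g h := relAct_mul (extAction α) (inv_inrSet α) g h
  copies := eqCopyProp_relF (extAction α) hω (inv_inrSet α)

end

noncomputable section

/-- `F_ω(A)` for unital `A` with the induced action. -/
def sysFOmega {G A : Type*} [Group G] [Countable G] [CStarAlgebra A]
    [TopologicalSpace.SeparableSpace A] {ω : Ultrafilter ℕ} (hω : (ω : Filter ℕ) ≤ cofinite)
    (α : G →* (A ≃⋆ₐ[ℂ] A)) : Sys G (Vale.P101.FOmega A ω) where
  act g := actC ω α g
  one := actC_one ω α
  mul g h := actC_mul ω α g h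
  copies := eqCopyProp_central α hω

/-- Without characters the commutators are full. -/
theorem full_of_noCharacters {E : Type*} [CStarAlgebra E] (h : Vale.P101.NoCharacters E) :
    Vale.P101.Full (Vale.P101.commSet E) := by
  refine Vale.P101.full_commSet ⟨fun χ => ?_⟩
  have := congrArg (fun f : E →⋆ₙₐ[ℂ] ℂ => f 1) (h χ.toNonUnitalStarAlgHom)
  exact one_ne_zero ((map_one χ).symm.trans this)

end

end Vale.P095.Nonunital
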