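import Vale.Agent.P101.Central

/-!
# P095: the quotient of a C⋆-algebra by a closed self-adjoint two-sided ideal
-/

namespace Vale.P095.Nonunital

open Vale.P101

noncomputable section

variable {R : Type*} [CStarAlgebra R]

/-- A closed self-adjoint two-sided ideal. -/
structure CIdeal (R : Type*) [CStarAlgebra R] where
  /-- The underlying left ideal. -/
  toIdeal : Ideal R
  right_mem : ∀ a b, a ∈ toIdeal → a * b ∈ toIdeal
  star_mem : ∀ a, a ∈ toIdeal → star a ∈ toIdeal
  closed : IsClosed (toIdeal : Set R)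

namespace CIdeal

variable (J : CIdeal R)

instance : J.toIdeal.IsTwoSided := ⟨fun {a} b ha => J.right_mem a b ha⟩

instance : IsClosed (J.toIdeal : Set R) := J.closed

/-- The quotient. -/
abbrev Quo : Type _ := R ⧸ J.toIdeal

instance : Star J.Quo :=
  ⟨Quotient.map' star fun a b h => by
    rw [Submodule.quotientRel_def] at h ⊢
    simpa using J.star_mem _ h⟩

theorem star_mk (a : R) :
    star (Ideal.Quotient.mk J.toIdeal a) = Ideal.Quotient.mk J.toIdeal (star a) := rfl

instance : StarRing J.Quo where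
  star_involutive x := by
    obtain ⟨a, rfl⟩ := Ideal.Quotient.mk_surjective x
    rw [star_mk, star_mk, star_star]
  star_mul x y := by
    obtain ⟨a, rfl⟩ := Ideal.Quotient.mk_surjective x
    obtain ⟨b, rfl⟩ := Ideal.Quotient.mk_surjective y
    rw [← map_mul, star_mk, star_mk, star_mk, ← map_mul, star_mul]
  star_add x y := by
    obtain ⟨a, rfl⟩ := Ideal.Quotient.mk_surjective x
    obtain ⟨b, rfl⟩ := Ideal.Quotient.mk_surjective y
    rw [← map_add, star_mk, star_mk, star_mk, ← map_add, star_add]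

instance : StarModule ℂ J.Quo where
  star_smul c x := by
    obtain ⟨a, rfl⟩ := Ideal.Quotient.mk_surjective x
    show star (Ideal.Quotient.mk J.toIdeal (c • a)) = _
    rw [star_mk, star_mk, star_smul]
    rfl

theorem mem_of_real_smul {a : R} (ha : a ∈ J.toIdeal) (c : ℝ) : c • a ∈ J.toIdeal := by
  rw [Algebra.smul_def]
  exact J.toIdeal.mul_mem_left _ ha

/-- Some `x - x e` with `e` in the ideal is nearly optimal. -/
theorem exists_small {x j : R} {δ : ℝ} (hδ : 0 < δ) (hj : j ∈ J.toIdeal) :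
    ∃ e ∈ J.toIdeal, ‖x - x * e‖ * ‖x - x * e‖ ≤ ‖star x * x + j‖ + δ := by
  let _ := CStarAlgebra.spectralOrder R
  have _ := CStarAlgebra.spectralOrderedRing R
  set k : R := star j * j with hk
  have hk0 : 0 ≤ k := star_mul_self_nonneg j
  have hks : IsSelfAdjoint k := hk0.isSelfAdjoint
  have hkJ : k ∈ J.toIdeal := J.toIdeal.mul_mem_left _ hj
  set f : ℝ → ℝ := fun t => δ ^ 2 / (δ ^ 2 + |t|) with hf
  have hden : ∀ t : ℝ, δ ^ 2 + |t| ≠ 0 := fun t => by positivity
  have hfc : Continuous f := by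
    simp only [hf]
    exact continuous_const.div (by fun_prop) hden
  set gc : ℝ → ℝ := fun t => 1 / (δ ^ 2 + |t|) with hgc
  have hgcc : Continuous gc := by
    simp only [hgc]
    exact continuous_const.div (by fun_prop) hden
  have he : (1 : R) - cfc f k = cfc gc k * k := by
    have h1 : cfc (fun t => gc t * t) k = cfc gc k * k := by
      rw [cfc_mul gc (fun t => t) k hgcc.continuousOn continuousOn_id, cfc_id' ℝ k hks]
    rw [← h1, ← cfc_const_one ℝ k hks, ← cfc_sub _ _ k continuousOn_const hfc.continuousOn]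
    refine cfc_congr fun t ht => ?_
    have ht0 : 0 ≤ t := spectrum_nonneg_of_nonneg hk0 ht
    simp only [hf, hgc, Pi.one_apply, abs_of_nonneg ht0]
    field_simp
    ring
  refine ⟨1 - cfc f k, he ▸ J.toIdeal.mul_mem_left _ hkJ, ?_⟩
  set p : R := cfc f k with hp
  have hps : star p = p := cfc_predicate (p := IsSelfAdjoint) f k
  have hp1 : ‖p‖ ≤ 1 := norm_cfc_le zero_le_one fun t _ => by
    simp only [hf, Real.norm_eq_abs]
    rw [abs_of_nonneg (by positivity), div_le_one (by positivity)]
    linarith [abs_nonneg t]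
  have hjp : ‖j * p‖ ≤ δ := by
    have h : ‖star (j * p) * (j * p)‖ ≤ δ * δ := by
      rw [star_mul, hps, ← mul_assoc, mul_assoc p, ← hk]
      have h' : cfc (fun t => f t * t * f t) k = p * k * p := by
        rw [cfc_mul (fun t => f t * t) f k (hfc.mul continuous_id).continuousOn hfc.continuousOn,
          cfc_mul f (fun t => t) k hfc.continuousOn continuousOn_id, cfc_id' ℝ k hks]
      rw [← h']
      refine norm_cfc_le (by positivity) fun t _ => ?_
      simp only [hf, id, Real.norm_eq_abs, abs_mul, abs_div, abs_of_nonneg (sq_nonneg δ),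
        abs_of_nonneg (show (0 : ℝ) ≤ δ ^ 2 + |t| by positivity)]
      rw [div_mul_eq_mul_div, div_mul_div_comm, div_le_iff₀ (by positivity)]
      nlinarith [sq_nonneg (δ ^ 2 - |t|), abs_nonneg t, mul_nonneg (sq_nonneg δ) (abs_nonneg t),
        pow_nonneg hδ.le 6]
    rw [CStarRing.norm_star_mul_self] at h
    nlinarith [norm_nonneg (j * p)]
  calc ‖x - x * (1 - p)‖ * ‖x - x * (1 - p)‖ = ‖star (x * p) * (x * p)‖ := by
        rw [CStarRing.norm_star_mul_self, mul_sub, mul_one, sub_sub_cancel]
    _ = ‖p * (star x * x + j) * p - p * (j * p)‖ := by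
        rw [star_mul, hps]
        congr 1
        simp only [mul_add, add_mul, mul_assoc]
        abel
    _ ≤ ‖p * (star x * x + j) * p‖ + ‖p * (j * p)‖ := norm_sub_le _ _
    _ ≤ ‖star x * x + j‖ + δ := by
        refine add_le_add ((norm_mul_le _ _).trans ?_) ((norm_mul_le _ _).trans ?_)
        · calc ‖p * (star x * x + j)‖ * ‖p‖ ≤ (1 * ‖star x * x + j‖) * 1 := by
                gcongr
                exact (norm_mul_le _ _).trans (by gcongr)
            _ = _ := by ring
        · calc ‖p‖ * ‖j * p‖ ≤ 1 * δ := by gcongr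
            _ = δ := one_mul δ

instance : CStarRing J.Quo where
  norm_mul_self_le x := by
    obtain ⟨a, rfl⟩ := Ideal.Quotient.mk_surjective x
    refine le_of_forall_pos_le_add fun ε hε => ?_
    obtain ⟨b, hb, hbn⟩ :=
      quot_exists_norm_lt J.toIdeal (Ideal.Quotient.mk J.toIdeal (star a * a)) (half_pos hε)
    rw [star_mk, ← map_mul]
    obtain ⟨e, he, hle⟩ := J.exists_small (x := a) (half_pos hε) (Ideal.Quotient.eq.1 hb)
    rw [show star a * a + (b - star a * a) = b by abel] at hle
    have hae : Ideal.Quotient.mk J.toIdeal a = Ideal.Quotient.mk J.toIdeal (a - a * e) := by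
      rw [map_sub, map_mul, Ideal.Quotient.eq_zero_iff_mem.2 he, mul_zero, sub_zero]
    calc ‖Ideal.Quotient.mk J.toIdeal a‖ * ‖Ideal.Quotient.mk J.toIdeal a‖
        ≤ ‖a - a * e‖ * ‖a - a * e‖ := by
          rw [hae]
          exact mul_le_mul (quot_norm_mk_le _ _) (quot_norm_mk_le _ _) (norm_nonneg _) (norm_nonneg _)
      _ ≤ _ := by linarith

instance : CStarAlgebra J.Quo where

/-- The quotient map. -/
def proj : R →⋆ₐ[ℂ] J.Quo :=
  { Ideal.Quotient.mkₐ ℂ J.toIdeal with map_star' := fun a => (J.star_mk a).symm }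

theorem proj_surjective : Function.Surjective J.proj := Ideal.Quotient.mk_surjective

theorem proj_eq_zero {a : R} : J.proj a = 0 ↔ a ∈ J.toIdeal := Ideal.Quotient.eq_zero_iff_mem

/-- Homomorphisms killing the ideal descend. -/
theorem exists_lift {E : Type*} [CStarAlgebra E] (f : R →⋆ₐ[ℂ] E)
    (h : ∀ y, y ∈ J.toIdeal → f y = 0) : ∃ φ : J.Quo →⋆ₐ[ℂ] E, ∀ y, φ (J.proj y) = f y :=
  exists_desc (L := R) (B := J.Quo) (E := E) J.proj J.proj_surjective f
    fun y hy => h y (J.proj_eq_zero.1 hy)

/-- A homomorphism killing the kernel of another one is dominated by it. -/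
theorem norm_le_of_kills {E : Type*} [CStarAlgebra E] (f g : R →⋆ₐ[ℂ] E)
    (hf : ∀ y, y ∈ J.toIdeal → f y = 0) (hg : ∀ y, y ∈ J.toIdeal ↔ g y = 0) (x : R) :
    ‖f x‖ ≤ ‖g x‖ := by
  obtain ⟨φ, hφ⟩ := J.exists_lift f hf
  obtain ⟨ι, hι⟩ := J.exists_lift g fun y hy => (hg y).1 hy
  have hιinj : Function.Injective ι := by
    rw [injective_iff_map_eq_zero]
    intro z hz
    obtain ⟨y, rfl⟩ := J.proj_surjective z
    rw [hι] at hz
    exact J.proj_eq_zero.2 ((hg y).2 hz)
  calc ‖f x‖ = ‖φ (J.proj x)‖ := by rw [hφ]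
    _ ≤ ‖J.proj x‖ := NonUnitalStarAlgHom.norm_apply_le φ _
    _ = ‖g x‖ := by rw [← NonUnitalStarAlgHom.norm_map ι hιinj, hι]

/-- A homomorphism from a closed subalgebra preserving the ideal is contractive modulo it. -/
theorem norm_proj_map_le (T : StarSubalgebra ℂ R) (hT : IsClosed (T : Set R))
    (σ : T →⋆ₐ[ℂ] R) (h : ∀ y : T, (y : R) ∈ J.toIdeal → σ y ∈ J.toIdeal) (x : T) :
    ‖J.proj (σ x)‖ ≤ ‖J.proj (x : R)‖ := by
  haveI : IsClosed (T : Set R) := hT
  letI : CStarAlgebra T := StarSubalgebra.cstarAlgebra (A := R) T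
  let K : CIdeal T :=
    { toIdeal := J.toIdeal.comap T.subtype.toAlgHom.toRingHom
      right_mem := fun a b ha => J.right_mem _ _ ha
      star_mem := fun a ha => J.star_mem _ ha
      closed := J.closed.preimage continuous_subtype_val }
  exact K.norm_le_of_kills (J.proj.comp σ) (J.proj.comp T.subtype)
    (fun y hy => J.proj_eq_zero.2 (h y hy)) (fun y => J.proj_eq_zero.symm) x

end CIdeal

end

end Vale.P095.Nonunital
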