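import Vale.Agent.P101.DimDropDef

/-!
# P095: the statement for arbitrary separable `A`

`F(A) = (Ã_ω ∩ Ã') / Ann(A)` with `Ã = Unitization ℂ A`, spelled out on sequences: a representative
is a bounded sequence in `Ã` commuting asymptotically with `A`, and it represents zero when its
products with every element of `A` tend to zero along `ω`.
-/

open Filter Topology

namespace Vale.P095.Nonunital

variable {A : Type*} [NonUnitalCStarAlgebra A]

/-- A bounded sequence in the unitization commuting asymptotically with `A`. -/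
def CentralSeq (ω : Ultrafilter ℕ) (z : ℕ → Unitization ℂ A) : Prop :=
  (∃ C : ℝ, ∀ n, ‖z n‖ ≤ C) ∧
    ∀ a : A, Tendsto (fun n => ‖z n * (a : Unitization ℂ A) - (a : Unitization ℂ A) * z n‖) ω (𝓝 0)

/-- The sequence annihilates `A` along `ω`, i.e. it is zero in `F(A)`. -/
def AnnSeq (ω : Ultrafilter ℕ) (z : ℕ → Unitization ℂ A) : Prop :=
  ∀ a : A, Tendsto (fun n => ‖z n * (a : Unitization ℂ A)‖) ω (𝓝 0)

/-- The commutators of `F(A)` generate it as an ideal. -/
def CommutatorsFull (A : Type*) [NonUnitalCStarAlgebra A] (ω : Ultrafilter ℕ) : Prop :=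
  ∃ (m : ℕ) (u x y v : Fin m → ℕ → Unitization ℂ A),
    (∀ i, CentralSeq ω (u i) ∧ CentralSeq ω (x i) ∧ CentralSeq ω (y i) ∧ CentralSeq ω (v i)) ∧
      AnnSeq ω fun n => 1 - ∑ i, u i n * (x i n * y i n - y i n * x i n) * v i n

/-- The extension of a map of `A` to the unitization, fixing the scalar part. -/
def extMap (h : A → A) (z : Unitization ℂ A) : Unitization ℂ A :=
  Unitization.inl z.fst + (h z.snd : Unitization ℂ A)

/-- A unital star homomorphism from `Z(2,3)` to `F(A)` with values fixed by each `act g`, given by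
representing sequences. -/
def HasFixedDimDropHomFA (ω : Ultrafilter ℕ) {G : Type} (act : G → A → A) : Prop :=
  ∃ ψ : C(Set.Icc (0 : ℝ) 1, P101.DD.M6) → ℕ → Unitization ℂ A,
    ∀ f ∈ P101.DD.dimDrop23, CentralSeq ω (ψ f) ∧
      (∀ g : G, AnnSeq ω fun n => extMap (act g) (ψ f n) - ψ f n) ∧
      (AnnSeq ω fun n => ψ (star f) n - star (ψ f n)) ∧
      (∀ c : ℂ, AnnSeq ω fun n => ψ (algebraMap ℂ _ c) n - algebraMap ℂ _ c) ∧
      ∀ f' ∈ P101.DD.dimDrop23, (AnnSeq ω fun n => ψ (f + f') n - (ψ f n + ψ f' n)) ∧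
        AnnSeq ω fun n => ψ (f * f') n - ψ f n * ψ f' n

end Vale.P095.Nonunital
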