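import Vale.Agent.P095.Finite.General
import Vale.Agent.P095.Finite.Main
import Vale.Agent.P095.Nonunital.FA
import Vale.Agent.P095.Nonunital.Statement

/-!
# P095: locally finite groups acting on arbitrary separable `A`

The sequence form of `F(A)`, the finite group theorem for `F(A)` and an `ε`-test along finite
subgroups.
-/

open scoped BoundedContinuousFunction
open Filter Topology

namespace Vale.P095.Nonunital

open Vale.P101

noncomputable section

variable {A : Type*} [NonUnitalCStarAlgebra A] {ω : Ultrafilter ℕ}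

theorem inr_star_mem (a : A) :
    star (a : Unitization ℂ A) ∈ inrSet A := ⟨star a, Unitization.inr_star a⟩

/-- Classes in `Ã_ω` are central exactly for central sequences. -/
theorem cls_mem_central_iff (f : ℕ →ᵇ Unitization ℂ A) :
    cls ω f ∈ Central (Unitization ℂ A) ω ↔ CentralSeq ω (fun n => f n) := by
  rw [mem_central]
  constructor
  · refine fun h => ⟨⟨‖f‖, f.norm_coe_le_norm⟩, fun a => ?_⟩
    simpa using tendsto_of_commute_cls ω (h (a : Unitization ℂ A)).symm
  · intro h b
    refine (commute_cls_of_tendsto ω ?_).symm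
    have e : ∀ n, f n * b - b * f n =
        f n * (b.snd : Unitization ℂ A) - (b.snd : Unitization ℂ A) * f n := fun n => by
      conv_lhs => rw [← Unitization.inl_fst_add_inr_snd_eq b]
      have : Commute (Unitization.inl b.fst : Unitization ℂ A) (f n) :=
        Algebra.commute_algebraMap_left b.fst (f n)
      rw [mul_add, add_mul, this.eq]
      abel
    simpa [e] using h.2 b.snd

theorem mk_star_seq {B : Type*} [CStarAlgebra B] (f : ℕ →ᵇ B) :
    Ideal.Quotient.mk (NullSeq B ω) (star f) = star (Ideal.Quotient.mk (NullSeq B ω) f) :=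
  (star_cls ω f).symm

theorem continuous_constSeq {B : Type*} [CStarAlgebra B] :
    Continuous fun b : B => constSeq ω b :=
  (AddMonoidHomClass.continuous_of_bound (cls ω).toLinearMap 1 fun g => by
    rw [one_mul]
    exact quot_norm_mk_le (NullSeq B ω) g).comp
    (Isometry.continuous (Isometry.of_dist_eq fun p q => by
      simp [dist_eq_norm, BoundedContinuousFunction.norm_eq_iSup_norm]))

/-- Vanishing of products with constants. -/
theorem cls_mul_const_eq_zero_iff (f : ℕ →ᵇ Unitization ℂ A) (b : Unitization ℂ A) :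
    cls ω f * constSeq ω b = 0 ↔ Tendsto (fun n => ‖f n * b‖) ω (𝓝 0) := by
  rw [← map_mul, ← map_zero (cls (A := Unitization ℂ A) ω), cls_eq_cls, mem_nullSeq, sub_zero]
  rfl

/-- Equality in `F(A)` in terms of sequences. -/
theorem relProj_eq_iff {x y : Central (Unitization ℂ A) ω} {f g : ℕ →ᵇ Unitization ℂ A}
    (hf : cls ω f = (x : Ultrapower (Unitization ℂ A) ω))
    (hg : cls ω g = (y : Ultrapower (Unitization ℂ A) ω)) :
    relProj (Unitization ℂ A) ω (inrSet A) x = relProj (Unitization ℂ A) ω (inrSet A) y ↔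
      AnnSeq ω fun n => f n - g n := by
  rw [← sub_eq_zero, ← map_sub, relProj_eq_zero, mem_annIdeal]
  have e : ((x - y : Central (Unitization ℂ A) ω) : Ultrapower (Unitization ℂ A) ω) =
      cls ω (f - g) := by rw [map_sub, hf, hg]; rfl
  constructor
  · intro h a
    exact (cls_mul_const_eq_zero_iff (f - g) _).1 (by rw [← e]; exact (h _ ⟨a, rfl⟩).1)
  · rintro h _ ⟨a, rfl⟩
    rw [e, ← Unitization.inr_star]
    exact ⟨(cls_mul_const_eq_zero_iff (f - g) _).2 (h a),
      (cls_mul_const_eq_zero_iff (f - g) _).2 (h (star a))⟩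

/-- The element of `F(A)` given by a central sequence. -/
def ofSeq (f : ℕ →ᵇ Unitization ℂ A) (hf : CentralSeq ω (fun n => f n)) : FA A ω :=
  relProj (Unitization ℂ A) ω (inrSet A) ⟨cls ω f, (cls_mem_central_iff f).2 hf⟩

theorem ofSeq_eq_iff {f g : ℕ →ᵇ Unitization ℂ A} (hf : CentralSeq ω (fun n => f n))
    (hg : CentralSeq ω (fun n => g n)) :
    ofSeq f hf = ofSeq g hg ↔ AnnSeq ω fun n => f n - g n := relProj_eq_iff rfl rfl

/-- Representatives of nearly minimal norm. -/
theorem exists_ofSeq (y : FA A ω) : ∃ (f : ℕ →ᵇ Unitization ℂ A)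
    (hf : CentralSeq ω (fun n => f n)), ofSeq f hf = y ∧ ‖f‖ ≤ ‖y‖ + 2 := by
  obtain ⟨r, hr, hrn⟩ :=
    quot_exists_norm_lt (annIdeal (Unitization ℂ A) ω (inrSet A)).toIdeal y one_pos
  obtain ⟨f, hf, hfn⟩ := quot_exists_norm_lt (NullSeq (Unitization ℂ A) ω)
    (r : Ultrapower (Unitization ℂ A) ω) one_pos
  have hf' : cls ω f = (r : Ultrapower (Unitization ℂ A) ω) := hf
  refine ⟨f, (cls_mem_central_iff f).1 (hf' ▸ r.2), ?_, ?_⟩
  · have : (⟨cls ω f, hf' ▸ r.2⟩ : Central (Unitization ℂ A) ω) = r := Subtype.ext hf'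
    show relProj _ _ _ _ = y
    rw [this]
    exact hr
  · have : ‖(r : Ultrapower (Unitization ℂ A) ω)‖ = ‖r‖ := rfl
    calc ‖f‖ ≤ ‖r‖ + 1 := this ▸ hfn.le
      _ ≤ ‖y‖ + 1 + 1 := by
          refine add_le_add ?_ le_rfl
          exact hrn.le
      _ = ‖y‖ + 2 := by ring

/-- Commutator fullness on sequences gives fullness in `F(A)`. -/
theorem full_of_commutatorsFull (h : CommutatorsFull A ω) : Full (commSet (FA A ω)) := by
  obtain ⟨m, u, x, y, v, hc, hann⟩ := h
  have hb : ∀ z : ℕ → Unitization ℂ A, CentralSeq ω z → ∃ f : ℕ →ᵇ Unitization ℂ A, ∀ n, f n = z n :=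
    fun z hz => by
      obtain ⟨C, hC⟩ := hz.1
      exact ⟨BoundedContinuousFunction.ofNormedAddCommGroup z continuous_of_discreteTopology C hC,
        fun n => rfl⟩
  choose U hU using fun i => hb _ (hc i).1
  choose X hX using fun i => hb _ (hc i).2.1
  choose Y hY using fun i => hb _ (hc i).2.2.1
  choose V hV using fun i => hb _ (hc i).2.2.2
  have mk : ∀ (F : Fin m → (ℕ →ᵇ Unitization ℂ A)) (z : Fin m → ℕ → Unitization ℂ A),
      (∀ i n, F i n = z i n) → (∀ i, CentralSeq ω (z i)) →
      ∀ i, cls ω (F i) ∈ Central (Unitization ℂ A) ω := fun F z hF hz i =>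
    (cls_mem_central_iff _).2 (by simpa only [hF] using hz i)
  let u' : Fin m → Central (Unitization ℂ A) ω :=
    fun i => ⟨_, mk U u hU (fun i => (hc i).1) i⟩
  let x' : Fin m → Central (Unitization ℂ A) ω :=
    fun i => ⟨_, mk X x hX (fun i => (hc i).2.1) i⟩
  let y' : Fin m → Central (Unitization ℂ A) ω :=
    fun i => ⟨_, mk Y y hY (fun i => (hc i).2.2.1) i⟩
  let v' : Fin m → Central (Unitization ℂ A) ω :=
    fun i => ⟨_, mk V v hV (fun i => (hc i).2.2.2) i⟩
  let q := relProj (Unitization ℂ A) ω (inrSet A)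
  have e : q 1 = q (∑ i, u' i * (x' i * y' i - y' i * x' i) * v' i) := by
    refine (relProj_eq_iff (f := 1) (g := ∑ i, U i * (X i * Y i - Y i * X i) * V i)
      (by simp) ?_).2 ?_
    · simp [u', x', y', v', map_sum, map_mul, map_sub]
    · simpa [hU, hX, hY, hV] using hann
  show (1 : FA A ω) ∈ twoSided (commSet (FA A ω))
  rw [← map_one q, e, map_sum]
  exact Submodule.sum_mem _ fun i _ => by
    rw [map_mul, map_mul, map_sub, map_mul, map_mul]
    exact mul_mem_twoSided (comm_mem_twoSided _ _) _ _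

theorem extAction_eq_extMap {G : Type*} [Group G] (α : G →* (A ≃⋆ₐ[ℂ] A)) (g : G)
    (z : Unitization ℂ A) : extAction α g z = extMap (fun a => α g a) z := by
  conv_lhs => rw [← Unitization.inl_fst_add_inr_snd_eq z, map_add, extAction_inr]
  rw [extMap]
  congr 1
  exact AlgHomClass.commutes (extAction α g) z.fst

/-- The action on representatives. -/
theorem act_ofSeq_eq_self_iff [TopologicalSpace.SeparableSpace A]
    (hω : (ω : Filter ℕ) ≤ cofinite) {G : Type*} [Group G] [Countable G]
    (α : G →* (A ≃⋆ₐ[ℂ] A)) (g : G) {f : ℕ →ᵇ Unitization ℂ A}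
    (hf : CentralSeq ω (fun n => f n)) :
    (sysFA hω α).act g (ofSeq f hf) = ofSeq f hf ↔
      AnnSeq ω fun n => extMap (fun a => α g a) (f n) - f n := by
  show relAct (extAction α) (inv_inrSet α) g (relProj _ ω _ _) = _ ↔ _
  rw [relAct_proj, ofSeq, relProj_eq_iff
    (f := bmap (StarAlgHomClass.toStarAlgHom (extAction α g)) f) (g := f) rfl rfl]
  simp only [bmap_apply]
  simp only [show ∀ z, StarAlgHomClass.toStarAlgHom (extAction α g) z =
    extMap (fun a => α g a) z from extAction_eq_extMap α g]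

variable [TopologicalSpace.SeparableSpace A]

/-- Annihilation may be tested on a dense sequence. -/
theorem annSeq_of_dense (f : ℕ →ᵇ Unitization ℂ A) {a : ℕ → A} (ha : DenseRange a)
    (h : ∀ j, Tendsto (fun n => ‖f n * (a j : Unitization ℂ A)‖) ω (𝓝 0)) :
    AnnSeq ω fun n => f n := by
  intro b
  rw [← cls_mul_const_eq_zero_iff]
  have hc : Continuous fun b : A => cls ω f * constSeq ω (b : Unitization ℂ A) :=
    Continuous.mul continuous_const
      ((continuous_constSeq (ω := ω) (B := Unitization ℂ A)).comp Unitization.isometry_inr.continuous)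
  exact ha.induction_on (p := fun b => cls ω f * constSeq ω (b : Unitization ℂ A) = 0) b
    (isClosed_eq hc continuous_const) fun j => (cls_mul_const_eq_zero_iff f _).2 (h j)

/-- Equality modulo `Ann(A)` may be tested on a dense sequence. -/
theorem annSeq_sub_of_dense (f g : ℕ →ᵇ Unitization ℂ A) {a : ℕ → A} (ha : DenseRange a)
    (h : ∀ j, Tendsto (fun n => ‖(f n - g n) * (a j : Unitization ℂ A)‖) ω (𝓝 0)) :
    AnnSeq ω fun n => f n - g n :=
  annSeq_of_dense (f - g) ha h

/-- Centrality may be tested on a dense sequence. -/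
theorem centralSeq_of_dense (f : ℕ →ᵇ Unitization ℂ A) {a : ℕ → A} (ha : DenseRange a)
    (h : ∀ j, Tendsto (fun n => ‖f n * (a j : Unitization ℂ A) -
      (a j : Unitization ℂ A) * f n‖) ω (𝓝 0)) : CentralSeq ω fun n => f n := by
  refine ⟨⟨‖f‖, f.norm_coe_le_norm⟩, fun b => ?_⟩
  have hk : Continuous fun b : A => constSeq ω (b : Unitization ℂ A) :=
    continuous_constSeq.comp Unitization.isometry_inr.continuous
  have hcom : Commute (cls ω f) (constSeq ω (b : Unitization ℂ A)) :=
    ha.induction_on (p := fun b => Commute (cls ω f) (constSeq ω (b : Unitization ℂ A))) b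
      (isClosed_eq (continuous_const.mul hk) (hk.mul continuous_const))
      fun j => commute_cls_of_tendsto ω (by simpa using h j)
  simpa using tendsto_of_commute_cls ω hcom

/-- The finite group step, on sequences. -/
theorem exists_seqs_finite (hω : (ω : Filter ℕ) ≤ cofinite) {G : Type} [Group G] [Countable G]
    (α : G →* (A ≃⋆ₐ[ℂ] A)) (H : Subgroup G) [Finite H] (hfull : Full (commSet (FA A ω))) :
    ∃ X V : ℕ →ᵇ Unitization ℂ A, ‖X‖ ≤ 3 ∧ ‖V‖ ≤ 3 ∧
      CentralSeq ω (fun i => X i) ∧ CentralSeq ω (fun i => V i) ∧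
      (∀ g ∈ H, (AnnSeq ω fun i => extMap (fun a => α g a) (X i) - X i) ∧
        AnnSeq ω fun i => extMap (fun a => α g a) (V i) - V i) ∧
      (AnnSeq ω fun i => X i * X i) ∧
      (AnnSeq ω fun i => star (V i) * V i - (1 - (star (X i) * X i + X i * star (X i)))) ∧
      AnnSeq ω fun i => X i * star (X i) * V i - V i := by
  obtain ⟨x, v, hx, hv, h1, h2, h3⟩ := exists_relations_fixedAlg
    (sysFA hω (α.comp H.subtype)).one (sysFA hω (α.comp H.subtype)).mul
    (sysFA hω (α.comp H.subtype)).copies hfull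
  obtain ⟨X, hXc, rfl, hXn⟩ := exists_ofSeq x
  obtain ⟨V, hVc, rfl, hVn⟩ := exists_ofSeq v
  obtain ⟨hnx, hnv⟩ := norm_le_one_of_relations h2
  refine ⟨X, V, by linarith, by linarith, hXc, hVc, fun g hg =>
    ⟨(act_ofSeq_eq_self_iff hω (α.comp H.subtype) ⟨g, hg⟩ hXc).1 (hx _),
      (act_ofSeq_eq_self_iff hω (α.comp H.subtype) ⟨g, hg⟩ hVc).1 (hv _)⟩, ?_, ?_, ?_⟩
  all_goals simp only [ofSeq, ← map_star, ← map_mul, ← map_add,
    ← map_one (relProj (Unitization ℂ A) ω (inrSet A)), ← map_sub,
    ← map_zero (relProj (Unitization ℂ A) ω (inrSet A))] at h1 h2 h3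
  · simpa using (relProj_eq_iff (f := X * X) (g := 0) (by simp) (by simp)).1 h1
  · simpa using (relProj_eq_iff (f := star V * V) (g := 1 - (star X * X + X * star X))
      (by simp [mk_star_seq]) (by simp [mk_star_seq])).1 h2
  · simpa using (relProj_eq_iff (f := X * star X * V) (g := V)
      (by simp [mk_star_seq]) rfl).1 h3

/-- The `ε`-test: countably many conditions, each eventually met at all late stages, are met in
the limit along suitable stages. -/
theorem exists_diag (hω : (ω : Filter ℕ) ≤ cofinite) {c : ℕ → ℕ → ℕ → ℝ}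
    (h : ∀ n j, j ≤ n → Tendsto (c n j) ω (𝓝 0)) :
    ∃ N : ℕ → ℕ, ∀ j, Tendsto (fun i => c (N i) j i) ω (𝓝 0) := by
  classical
  let P : ℕ → ℕ → Prop := fun n i =>
    n ≤ i ∧ ∀ j ∈ Finset.range (n + 1), |c n j i| ≤ 1 / ((n : ℝ) + 1)
  have hP : ∀ n, ∀ᶠ i in (ω : Filter ℕ), P n i := fun n => by
    simp only [P, eventually_and, eventually_all_finset]
    refine ⟨hω (Nat.cofinite_eq_atTop ▸ eventually_ge_atTop n), fun j hj => ?_⟩
    have ht := (h n j (by simpa [Nat.lt_succ_iff] using hj)).abs
    rw [abs_zero] at ht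
    exact ht.eventually (eventually_le_nhds (by positivity))
  refine ⟨fun i => Nat.findGreatest (fun n => P n i) i, fun j => ?_⟩
  rw [Metric.tendsto_nhds]
  intro ε hε
  obtain ⟨m, hm⟩ := exists_nat_one_div_lt hε
  filter_upwards [hP (max m j)] with i hi
  set N := Nat.findGreatest (fun n => P n i) i
  have h1 : max m j ≤ N := Nat.le_findGreatest hi.1 hi
  have h2 : P N i := Nat.findGreatest_spec (P := fun n => P n i) hi.1 hi
  rw [Real.dist_eq, sub_zero]
  refine lt_of_le_of_lt ((h2.2 j (Finset.mem_range.2 ?_)).trans ?_) hm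
  · exact Nat.lt_succ_of_le ((le_max_right m j).trans h1)
  · refine one_div_le_one_div_of_le (by positivity) ?_
    have : (m : ℝ) ≤ N := by exact_mod_cast (le_max_left m j).trans h1
    linarith

/-- The sum of the defects of `(x, v)` against the constant `a` and the map `h`. -/
def defect (h : A → A) (a : A) (x v : Unitization ℂ A) : ℝ :=
  ‖x * x * (a : Unitization ℂ A)‖ +
    ‖(star v * v - (1 - (star x * x + x * star x))) * (a : Unitization ℂ A)‖ +
    ‖(x * star x * v - v) * (a : Unitization ℂ A)‖ +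
    ‖x * (a : Unitization ℂ A) - (a : Unitization ℂ A) * x‖ +
    ‖v * (a : Unitization ℂ A) - (a : Unitization ℂ A) * v‖ +
    ‖(extMap h x - x) * (a : Unitization ℂ A)‖ + ‖(extMap h v - v) * (a : Unitization ℂ A)‖

theorem defect_bounds (h : A → A) (a : A) (x v : Unitization ℂ A) :
    ‖x * x * (a : Unitization ℂ A)‖ ≤ defect h a x v ∧
    ‖(star v * v - (1 - (star x * x + x * star x))) * (a : Unitization ℂ A)‖ ≤ defect h a x v ∧
    ‖(x * star x * v - v) * (a : Unitization ℂ A)‖ ≤ defect h a x v ∧
    ‖x * (a : Unitization ℂ A) - (a : Unitization ℂ A) * x‖ ≤ defect h a x v ∧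
    ‖v * (a : Unitization ℂ A) - (a : Unitization ℂ A) * v‖ ≤ defect h a x v ∧
    ‖(extMap h x - x) * (a : Unitization ℂ A)‖ ≤ defect h a x v ∧
    ‖(extMap h v - v) * (a : Unitization ℂ A)‖ ≤ defect h a x v := by
  have key : ∀ p q r s t u w : ℝ, 0 ≤ p → 0 ≤ q → 0 ≤ r → 0 ≤ s → 0 ≤ t → 0 ≤ u → 0 ≤ w →
      p ≤ p + q + r + s + t + u + w ∧ q ≤ p + q + r + s + t + u + w ∧
      r ≤ p + q + r + s + t + u + w ∧ s ≤ p + q + r + s + t + u + w ∧
      t ≤ p + q + r + s + t + u + w ∧ u ≤ p + q + r + s + t + u + w ∧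
      w ≤ p + q + r + s + t + u + w := by
    intro p q r s t u w _ _ _ _ _ _ _
    exact ⟨by linarith, by linarith, by linarith, by linarith, by linarith, by linarith,
      by linarith⟩
  exact key _ _ _ _ _ _ _ (norm_nonneg _) (norm_nonneg _) (norm_nonneg _) (norm_nonneg _)
    (norm_nonneg _) (norm_nonneg _) (norm_nonneg _)

/-- For a locally finite group, sequences with all defects tending to zero. -/
theorem exists_seqs_locallyFinite (hω : (ω : Filter ℕ) ≤ cofinite)
    {G : Type} [Group G] [Countable G]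
    (hG : ∀ S : Finset G, ((Subgroup.closure (S : Set G) : Subgroup G) : Set G).Finite)
    (α : G →* (A ≃⋆ₐ[ℂ] A)) (hfull : Full (commSet (FA A ω))) :
    ∃ (X V : ℕ →ᵇ Unitization ℂ A) (a : ℕ → A), DenseRange a ∧
      ∀ (g : G) (j : ℕ),
        Tendsto (fun i => defect (fun b => α g b) (a j) (X i) (V i)) ω (𝓝 0) := by
  classical
  obtain ⟨e, he⟩ := exists_surjective_nat G
  obtain ⟨a, ha⟩ := TopologicalSpace.exists_dense_seq A
  have hH : ∀ n, _ := fun n =>
    haveI : Finite (Subgroup.closure
        (((Finset.range (n + 1)).image e : Finset G) : Set G)) := (hG _).to_subtype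
    exists_seqs_finite hω α (Subgroup.closure
      (((Finset.range (n + 1)).image e : Finset G) : Set G)) hfull
  choose xs vs hxn hvn hxc hvc hfix hxx hvv hxv using hH
  let c : ℕ → ℕ → ℕ → ℝ := fun n J i =>
    defect (fun b => α (e J.unpair.2) b) (a J.unpair.1) (xs n i) (vs n i)
  obtain ⟨N, hN⟩ := exists_diag hω (c := c) fun n J hJ => by
    have hg : e J.unpair.2 ∈ Subgroup.closure
        (((Finset.range (n + 1)).image e : Finset G) : Set G) :=
      Subgroup.subset_closure (Finset.mem_coe.2 (Finset.mem_image_of_mem e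
        (Finset.mem_range.2 (Nat.lt_succ_of_le ((Nat.unpair_right_le J).trans hJ)))))
    have := ((((((hxx n (a J.unpair.1)).add (hvv n (a J.unpair.1))).add
      (hxv n (a J.unpair.1))).add ((hxc n).2 (a J.unpair.1))).add
      ((hvc n).2 (a J.unpair.1))).add ((hfix n _ hg).1 (a J.unpair.1))).add
      ((hfix n _ hg).2 (a J.unpair.1))
    simpa [c, defect] using this
  refine ⟨BoundedContinuousFunction.ofNormedAddCommGroup (fun i => xs (N i) i)
      continuous_of_discreteTopology 3 fun i => ((xs _).norm_coe_le_norm i).trans (hxn _),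
    BoundedContinuousFunction.ofNormedAddCommGroup (fun i => vs (N i) i)
      continuous_of_discreteTopology 3 fun i => ((vs _).norm_coe_le_norm i).trans (hvn _),
    a, ha, fun g j => ?_⟩
  obtain ⟨k, rfl⟩ := he g
  simpa [c] using hN (Nat.pair j k)

/-- Small defects on a dense sequence give the relations modulo `Ann(A)`. -/
theorem relations_of_defect (h : A → A) (X V : ℕ →ᵇ Unitization ℂ A) {a : ℕ → A}
    (ha : DenseRange a)
    (hd : ∀ j, Tendsto (fun i => defect h (a j) (X i) (V i)) ω (𝓝 0)) :
    (AnnSeq ω fun i => X i * X i) ∧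
    (AnnSeq ω fun i => star (V i) * V i - (1 - (star (X i) * X i + X i * star (X i)))) ∧
    AnnSeq ω fun i => X i * star (X i) * V i - V i := by
  refine ⟨?_, ?_, ?_⟩
  · intro b
    refine (annSeq_of_dense (X * X) ha (fun j => squeeze_zero (fun i => norm_nonneg _)
      (fun i => ?_) (hd j)) b).congr fun i => ?_
    · rw [BoundedContinuousFunction.mul_apply]
      exact (defect_bounds h (a j) (X i) (V i)).1
    · simp only [BoundedContinuousFunction.mul_apply]
  · intro b
    refine (annSeq_of_dense (star V * V - (1 - (star X * X + X * star X))) ha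
      (fun j => squeeze_zero (fun i => norm_nonneg _) (fun i => ?_) (hd j)) b).congr fun i => ?_
    · simp only [BoundedContinuousFunction.sub_apply, BoundedContinuousFunction.mul_apply,
        BoundedContinuousFunction.add_apply, BoundedContinuousFunction.star_apply,
        BoundedContinuousFunction.coe_one, Pi.one_apply]
      exact (defect_bounds h (a j) (X i) (V i)).2.1
    · simp only [BoundedContinuousFunction.sub_apply, BoundedContinuousFunction.mul_apply,
        BoundedContinuousFunction.add_apply, BoundedContinuousFunction.star_apply,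
        BoundedContinuousFunction.coe_one, Pi.one_apply]
  · intro b
    refine (annSeq_of_dense (X * star X * V - V) ha
      (fun j => squeeze_zero (fun i => norm_nonneg _) (fun i => ?_) (hd j)) b).congr fun i => ?_
    · simp only [BoundedContinuousFunction.sub_apply, BoundedContinuousFunction.mul_apply,
        BoundedContinuousFunction.star_apply]
      exact (defect_bounds h (a j) (X i) (V i)).2.2.1
    · simp only [BoundedContinuousFunction.sub_apply, BoundedContinuousFunction.mul_apply,
        BoundedContinuousFunction.star_apply]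

/-- For a locally finite group the relations are solvable among the fixed points of `F(A)`. -/
theorem exists_relations_locallyFinite_FA (hω : (ω : Filter ℕ) ≤ cofinite)
    {G : Type} [Group G] [Countable G]
    (hG : ∀ S : Finset G, ((Subgroup.closure (S : Set G) : Subgroup G) : Set G).Finite)
    (α : G →* (A ≃⋆ₐ[ℂ] A)) (hfull : Full (commSet (FA A ω))) :
    ∃ x v : fixedAlg (sysFA hω α).act, x * x = 0 ∧
      star v * v = 1 - (star x * x + x * star x) ∧ x * star x * v = v := by
  obtain ⟨X, V, a, ha, h⟩ := exists_seqs_locallyFinite hω hG α hfull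
  have hpart : ∀ (t : ℕ → ℝ) (g : G) (j : ℕ), (∀ i, 0 ≤ t i) →
      (∀ i, t i ≤ defect (fun b => α g b) (a j) (X i) (V i)) → Tendsto t ω (𝓝 0) :=
    fun t g j h0 ht => squeeze_zero h0 ht (h g j)
  have hXc : CentralSeq ω fun i => X i := centralSeq_of_dense X ha fun j =>
    hpart _ 1 j (fun i => norm_nonneg _) fun i => by
      exact (defect_bounds _ _ _ _).2.2.2.1
  have hVc : CentralSeq ω fun i => V i := centralSeq_of_dense V ha fun j =>
    hpart _ 1 j (fun i => norm_nonneg _) fun i => by
      exact (defect_bounds _ _ _ _).2.2.2.2.1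
  have hfix : ∀ g, (AnnSeq ω fun n => extMap (fun a => α g a) (X n) - X n) ∧
      AnnSeq ω fun n => extMap (fun a => α g a) (V n) - V n := fun g => by
    constructor
    · have := annSeq_of_dense (ω := ω) (bmap (StarAlgHomClass.toStarAlgHom (extAction α g)) X - X)
        ha fun j => hpart _ g j (fun i => norm_nonneg _) fun i => by
          simp only [BoundedContinuousFunction.sub_apply, bmap_apply]
          rw [show StarAlgHomClass.toStarAlgHom (extAction α g) (X i) = _ from
            extAction_eq_extMap α g (X i)]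
          exact (defect_bounds _ _ _ _).2.2.2.2.2.1
      intro b
      refine (this b).congr fun i => ?_
      simp only [BoundedContinuousFunction.sub_apply, bmap_apply]
      rw [show StarAlgHomClass.toStarAlgHom (extAction α g) (X i) = _ from
        extAction_eq_extMap α g (X i)]
    · have := annSeq_of_dense (ω := ω) (bmap (StarAlgHomClass.toStarAlgHom (extAction α g)) V - V)
        ha fun j => hpart _ g j (fun i => norm_nonneg _) fun i => by
          simp only [BoundedContinuousFunction.sub_apply, bmap_apply]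
          rw [show StarAlgHomClass.toStarAlgHom (extAction α g) (V i) = _ from
            extAction_eq_extMap α g (V i)]
          exact (defect_bounds _ _ _ _).2.2.2.2.2.2
      intro b
      refine (this b).congr fun i => ?_
      simp only [BoundedContinuousFunction.sub_apply, bmap_apply]
      rw [show StarAlgHomClass.toStarAlgHom (extAction α g) (V i) = _ from
        extAction_eq_extMap α g (V i)]
  refine ⟨⟨_, fun g => (act_ofSeq_eq_self_iff hω α g hXc).2 (hfix g).1⟩,
    ⟨_, fun g => (act_ofSeq_eq_self_iff hω α g hVc).2 (hfix g).2⟩,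
    Subtype.ext ?_, Subtype.ext ?_, Subtype.ext ?_⟩
  · show ofSeq X hXc * ofSeq X hXc = 0
    simp only [ofSeq, ← map_mul, ← map_zero (relProj (Unitization ℂ A) ω (inrSet A))]
    refine (relProj_eq_iff (f := X * X) (g := 0) (by simp) (by simp)).2 ?_
    simpa using (relations_of_defect _ X V ha (h 1)).1
  · show star (ofSeq V hVc) * ofSeq V hVc =
      1 - (star (ofSeq X hXc) * ofSeq X hXc + ofSeq X hXc * star (ofSeq X hXc))
    simp only [ofSeq, ← map_star, ← map_mul, ← map_add,
      ← map_one (relProj (Unitization ℂ A) ω (inrSet A)), ← map_sub]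
    refine (relProj_eq_iff (f := star V * V) (g := 1 - (star X * X + X * star X))
      (by simp [mk_star_seq]) (by simp [mk_star_seq])).2 ?_
    simpa using (relations_of_defect _ X V ha (h 1)).2.1
  · show ofSeq X hXc * star (ofSeq X hXc) * ofSeq V hVc = ofSeq V hVc
    simp only [ofSeq, ← map_star, ← map_mul]
    refine (relProj_eq_iff (f := X * star X * V) (g := V) (by simp [mk_star_seq]) rfl).2 ?_
    simpa using (relations_of_defect _ X V ha (h 1)).2.2

/-- `Z(2,3)` maps unitally into `F(A)^α` for a countable locally finite group. -/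
theorem fixed_dimDrop_FA (hω : (ω : Filter ℕ) ≤ cofinite) {G : Type} [Group G] [Countable G]
    (hG : ∀ S : Finset G, ((Subgroup.closure (S : Set G) : Subgroup G) : Set G).Finite)
    (α : G →* (A ≃⋆ₐ[ℂ] A)) (h : CommutatorsFull A ω) :
    HasFixedDimDropHomFA ω (fun g a => α g a) := by
  classical
  obtain ⟨x, v, hx, hv, hxv⟩ :=
    exists_relations_locallyFinite_FA hω hG α (full_of_commutatorsFull h)
  obtain ⟨φ⟩ := DD.exists_dimDrop_hom x v hx hv hxv
  choose R hR hRy _hRn using fun y : FA A ω => exists_ofSeq y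
  let Φ : DD.dimDrop23 →⋆ₐ[ℂ] FA A ω := (fixedAlg (sysFA hω α).act).subtype.comp φ
  let ψ : C(Set.Icc (0 : ℝ) 1, DD.M6) → ℕ → Unitization ℂ A := fun f =>
    if hf : f ∈ DD.dimDrop23 then fun n => R (Φ ⟨f, hf⟩) n else fun _ => 0
  have hψ : ∀ f (hf : f ∈ DD.dimDrop23) n, ψ f n = R (Φ ⟨f, hf⟩) n := fun f hf n => by
    simp [ψ, hf]
  have hrel : ∀ (y : Central (Unitization ℂ A) ω) (g : ℕ →ᵇ Unitization ℂ A),
      cls ω g = (y : Ultrapower (Unitization ℂ A) ω) → ∀ z,
      relProj (Unitization ℂ A) ω (inrSet A) y = z → AnnSeq ω fun n => R z n - g n := by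
    intro y g hg z hz
    refine (relProj_eq_iff (x := ⟨cls ω (R z), (cls_mem_central_iff _).2 (hR z)⟩) rfl hg).1 ?_
    exact (hRy z).trans hz.symm
  let K : FA A ω → Central (Unitization ℂ A) ω := fun z =>
    ⟨cls ω (R z), (cls_mem_central_iff _).2 (hR z)⟩
  have hK : ∀ z, relProj (Unitization ℂ A) ω (inrSet A) (K z) = z := hRy
  refine ⟨ψ, fun f hf => ⟨?_, fun g => ?_, ?_, fun c => ?_, fun f' hf' => ⟨?_, ?_⟩⟩⟩
  · simpa only [show ψ f = fun n => R (Φ ⟨f, hf⟩) n from funext (hψ f hf)] using hR _
  · simp only [hψ f hf]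
    refine (act_ofSeq_eq_self_iff hω α g (hR _)).1 ?_
    rw [hRy]
    exact (φ ⟨f, hf⟩).2 g
  · simp only [hψ f hf, hψ _ (star_mem hf)]
    exact hrel (star (K (Φ ⟨f, hf⟩))) (star (R _)) (by simp [K, mk_star_seq]) _
      (by rw [map_star, hK, ← map_star]; rfl)
  · simp only [hψ _ (algebraMap_mem DD.dimDrop23 c)]
    exact hrel (algebraMap ℂ _ c) (algebraMap ℂ _ c) (AlgHomClass.commutes (cls ω) c) _
      (by rw [AlgHomClass.commutes, ← AlgHomClass.commutes Φ]; rfl)
  · simp only [hψ _ hf, hψ _ hf', hψ _ (add_mem hf hf')]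
    exact hrel (K (Φ ⟨f, hf⟩) + K (Φ ⟨f', hf'⟩)) (R _ + R _) (by simp [K]) _
      (by rw [map_add, hK, hK, ← map_add]; rfl)
  · simp only [hψ _ hf, hψ _ hf', hψ _ (mul_mem hf hf')]
    exact hrel (K (Φ ⟨f, hf⟩) * K (Φ ⟨f', hf'⟩)) (R _ * R _) (by simp [K]) _
      (by rw [map_mul, hK, hK, ← map_mul]; rfl)

end

end Vale.P095.Nonunital
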