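import Mathlib

/-!
# P095: tracial weights and unit pairs
-/

open scoped NNReal ENNReal

namespace Vale.P095.Nonunital

open Unitization

noncomputable section

/-- A tracial weight; only the values on the elements `star x * x` matter. -/
structure TraceWeight (A : Type*) [NonUnitalCStarAlgebra A] where
  /-- The underlying map. -/
  toFun : A → ℝ≥0∞
  add : ∀ x y : A, toFun (star x * x + star y * y) = toFun (star x * x) + toFun (star y * y)
  smul : ∀ (r : ℝ≥0) (x : A), toFun (((r : ℝ) : ℂ) • (star x * x)) = r * toFun (star x * x)
  tracial : ∀ x : A, toFun (star x * x) = toFun (x * star x)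

/-- A compressing pair: `e` is a unit for `c`. -/
structure UnitPair (A : Type*) [NonUnitalCStarAlgebra A] where
  /-- The unit. -/
  e : A
  /-- The inner element. -/
  c : A
  e_sa : IsSelfAdjoint e
  c_sa : IsSelfAdjoint c
  fix : e * c = c

variable {A : Type*} [NonUnitalCStarAlgebra A]

namespace UnitPair

variable (p : UnitPair A)

/-- The inner element in the unitization. -/
def ci : (Unitization ℂ A) := inr p.c

/-- The test element `b = c * c`. -/
def bi : (Unitization ℂ A) := p.ci * p.ci

/-- The element `b q b`, in `A`. -/
def cut (q : Unitization ℂ A) : A := (p.bi * q * p.bi).snd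

end UnitPair

end

end Vale.P095.Nonunital
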