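import Vale.Agent.P095.Tracial.TraceIneq
import Vale.Agent.P095.Nonunital.WeightDefs

/-!
# P095: tracial weights on a nonunital algebra, cut down to bounded functionals

A `TraceWeight` is an additive, homogeneous, tracial `[0, ∞]`-valued map on the positive elements
(every lower semicontinuous densely defined trace is one).  For self-adjoint `e` with `τ (e e) ≤ 1`
it gives the functional `x ↦ τ (e x e)` on the unitization, of norm at most one, which is tracial on
`{p | e p = p = p e}`.
-/

open scoped NNReal ENNReal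

namespace Vale.P095.Nonunital

open Unitization

noncomputable section

variable (A : Type*) [NonUnitalCStarAlgebra A]

variable {A}

attribute [local instance] CStarAlgebra.spectralOrder CStarAlgebra.spectralOrderedRing

/-- The weight cut by `e`, on positive elements of the unitization. -/
def cutPos (τ : TraceWeight A) (e : A) (q : Unitization ℂ A) : ℝ :=
  (τ.toFun (((inr e : Unitization ℂ A) * q * inr e).snd)).toReal

theorem fst_sandwich (e : A) (q : Unitization ℂ A) : ((inr e : Unitization ℂ A) * q * inr e).fst = 0 := by simp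

theorem inr_snd_sandwich (e : A) (q : Unitization ℂ A) :
    (inr ((inr e : Unitization ℂ A) * q * inr e).snd : Unitization ℂ A) = inr e * q * inr e :=
  Unitization.ext (by simp) (by simp)

section

variable {τ : TraceWeight A} {e : A} (he : IsSelfAdjoint e) (hτ : τ.toFun (e * e) ≤ 1)
include he

theorem sandwich_sq (v : Unitization ℂ A) :
    ((inr e : Unitization ℂ A) * (star v * v) * inr e).snd =
      star ((v * inr e).snd) * (v * inr e).snd := by
  have h : (inr (star ((v * inr e).snd) * (v * inr e).snd) : Unitization ℂ A) =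
      inr e * (star v * v) * inr e := by
    have h0 : (inr (v * inr e).snd : Unitization ℂ A) = v * inr e := Unitization.ext (by simp) (by simp)
    rw [inr_mul, inr_star, h0, star_mul, ← inr_star, he.star_eq]
    simp only [mul_assoc]
  rw [← h, snd_inr]

omit he in
theorem exists_sq {q : (Unitization ℂ A)} (hq : 0 ≤ q) : ∃ v : (Unitization ℂ A), q = star v * v :=
  CStarAlgebra.nonneg_iff_eq_star_mul_self.mp hq

theorem toFun_add {p q : (Unitization ℂ A)} (hp : 0 ≤ p) (hq : 0 ≤ q) :
    τ.toFun ((inr e * (p + q) * inr e : Unitization ℂ A).snd) =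
      τ.toFun ((inr e * p * inr e : Unitization ℂ A).snd) + τ.toFun ((inr e * q * inr e : Unitization ℂ A).snd) := by
  obtain ⟨v, rfl⟩ := exists_sq hp
  obtain ⟨w, rfl⟩ := exists_sq hq
  rw [mul_add, add_mul, snd_add, sandwich_sq he v, sandwich_sq he w, τ.add]

theorem toFun_smul {p : (Unitization ℂ A)} (hp : 0 ≤ p) (r : ℝ≥0) :
    τ.toFun ((inr e * ((r : ℝ) • p) * inr e : Unitization ℂ A).snd) =
      r * τ.toFun ((inr e * p * inr e : Unitization ℂ A).snd) := by
  obtain ⟨v, rfl⟩ := exists_sq hp
  rw [mul_smul_comm, smul_mul_assoc, snd_smul, sandwich_sq he v, ← τ.smul,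
    Complex.coe_smul]

include hτ

theorem toFun_le {p : (Unitization ℂ A)} (hp : 0 ≤ p) :
    τ.toFun ((inr e * p * inr e : Unitization ℂ A).snd) ≤ ENNReal.ofReal ‖p‖ := by
  have hle : p ≤ algebraMap ℝ (Unitization ℂ A) ‖p‖ := hp.isSelfAdjoint.le_algebraMap_norm_self
  have h1 : τ.toFun ((inr e * (algebraMap ℝ (Unitization ℂ A) ‖p‖) * inr e : Unitization ℂ A).snd) ≤ ENNReal.ofReal ‖p‖ := by
    rw [Algebra.algebraMap_eq_smul_one,
      show ‖p‖ = ((‖p‖₊ : ℝ≥0) : ℝ) from rfl, toFun_smul he zero_le_one, mul_one]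
    have e1 : ((inr e : Unitization ℂ A) * inr e).snd = e * e := by simp
    rw [e1]
    calc (‖p‖₊ : ℝ≥0∞) * τ.toFun (e * e) ≤ (‖p‖₊ : ℝ≥0∞) * 1 := mul_le_mul' le_rfl hτ
      _ = _ := by rw [mul_one]; simp [ENNReal.ofReal, norm_toNNReal]
  refine le_trans ?_ h1
  conv_rhs => rw [show algebraMap ℝ (Unitization ℂ A) ‖p‖ = p + (algebraMap ℝ (Unitization ℂ A) ‖p‖ - p) by abel]
  rw [toFun_add he hp (sub_nonneg.2 hle)]
  exact le_self_add

theorem toFun_ne_top {p : (Unitization ℂ A)} (hp : 0 ≤ p) : τ.toFun ((inr e * p * inr e : Unitization ℂ A).snd) ≠ ⊤ :=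
  ne_top_of_le_ne_top ENNReal.ofReal_ne_top (toFun_le he hτ hp)

theorem cutPos_add {p q : (Unitization ℂ A)} (hp : 0 ≤ p) (hq : 0 ≤ q) :
    cutPos τ e (p + q) = cutPos τ e p + cutPos τ e q := by
  rw [cutPos, toFun_add he hp hq, ENNReal.toReal_add (toFun_ne_top he hτ hp)
    (toFun_ne_top he hτ hq)]
  rfl

theorem cutPos_le {p : (Unitization ℂ A)} (hp : 0 ≤ p) : cutPos τ e p ≤ ‖p‖ :=
  ENNReal.toReal_le_of_le_ofReal (norm_nonneg p) (toFun_le he hτ hp)

/-- The value on a self-adjoint element does not depend on the decomposition. -/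
theorem cutPos_sub_eq {p q p' q' : (Unitization ℂ A)} (hp : 0 ≤ p) (hq : 0 ≤ q) (hp' : 0 ≤ p') (hq' : 0 ≤ q')
    (h : p - q = p' - q') : cutPos τ e p - cutPos τ e q = cutPos τ e p' - cutPos τ e q' := by
  have h' : p + q' = p' + q := by
    calc p + q' = (p - q) + (q + q') := by abel
      _ = (p' - q') + (q + q') := by rw [h]
      _ = p' + q := by abel
  have := congrArg (cutPos τ e) h'
  rw [cutPos_add he hτ hp hq', cutPos_add he hτ hp' hq] at this
  linarith

end

variable (τ : TraceWeight A) (e : A)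

/-- The value on the self-adjoint part. -/
def cutVal (x : Unitization ℂ A) : ℝ :=
  cutPos τ e ((realPart x : Unitization ℂ A)⁺) - cutPos τ e ((realPart x : Unitization ℂ A)⁻)

variable {τ e}
variable (he : IsSelfAdjoint e) (hτ : τ.toFun (e * e) ≤ 1)
include he hτ

theorem cutVal_eq {x p q : (Unitization ℂ A)} (hp : 0 ≤ p) (hq : 0 ≤ q) (h : (realPart x : Unitization ℂ A) = p - q) :
    cutVal τ e x = cutPos τ e p - cutPos τ e q :=
  cutPos_sub_eq he hτ (CFC.posPart_nonneg _) (CFC.negPart_nonneg _) hp hq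
    ((CFC.posPart_sub_negPart _ (realPart x).2).trans h)

theorem cutVal_of_nonneg {p : (Unitization ℂ A)} (hp : 0 ≤ p) : cutVal τ e p = cutPos τ e p := by
  rw [cutVal_eq he hτ hp le_rfl (by rw [hp.isSelfAdjoint.coe_realPart, sub_zero])]
  simp only [cutPos, mul_zero, zero_mul, snd_zero]
  have h0 := τ.smul 0 e
  simp only [NNReal.coe_zero, Complex.ofReal_zero, zero_smul, ENNReal.coe_zero, zero_mul] at h0
  rw [h0, ENNReal.toReal_zero, sub_zero]

theorem cutVal_add (x y : Unitization ℂ A) : cutVal τ e (x + y) = cutVal τ e x + cutVal τ e y := by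
  rw [cutVal_eq he hτ (add_nonneg (CFC.posPart_nonneg (realPart x : Unitization ℂ A)) (CFC.posPart_nonneg (realPart y : Unitization ℂ A)))
    (add_nonneg (CFC.negPart_nonneg (realPart x : Unitization ℂ A)) (CFC.negPart_nonneg (realPart y : Unitization ℂ A)))
    (by
      rw [map_add, AddSubgroup.coe_add]
      conv_lhs => rw [← CFC.posPart_sub_negPart (realPart x : Unitization ℂ A) (realPart x).2,
        ← CFC.posPart_sub_negPart (realPart y : Unitization ℂ A) (realPart y).2]
      abel),
    cutPos_add he hτ (CFC.posPart_nonneg _) (CFC.posPart_nonneg _),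
    cutPos_add he hτ (CFC.negPart_nonneg _) (CFC.negPart_nonneg _), cutVal, cutVal]
  ring

omit he hτ in
theorem cutVal_star (x : Unitization ℂ A) : cutVal τ e (star x) = cutVal τ e x := by
  have : (realPart (star x) : Unitization ℂ A) = realPart x := by
    simp [realPart_apply_coe, add_comm]
  rw [cutVal, cutVal, this]

theorem abs_cutVal_le (x : Unitization ℂ A) : |cutVal τ e x| ≤ ‖x‖ := by
  set h : (Unitization ℂ A) := (realPart x : Unitization ℂ A)
  have hh : IsSelfAdjoint h := (realPart x).2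
  have hn : ‖h‖ ≤ ‖x‖ := realPart.norm_le x
  have b1 : cutPos τ e h⁺ ≤ ‖x‖ :=
    (cutPos_le he hτ (CFC.posPart_nonneg h)).trans ((CStarAlgebra.norm_posPart_le h).trans hn)
  have b2 : cutPos τ e h⁻ ≤ ‖x‖ :=
    (cutPos_le he hτ (CFC.negPart_nonneg h)).trans ((CStarAlgebra.norm_negPart_le h).trans hn)
  have c1 : 0 ≤ cutPos τ e h⁺ := ENNReal.toReal_nonneg
  have c2 : 0 ≤ cutPos τ e h⁻ := ENNReal.toReal_nonneg
  rw [cutVal, abs_le]
  constructor <;> linarith

omit hτ in
theorem cutVal_smul_nonneg (r : ℝ≥0) (p : Unitization ℂ A) (hp : 0 ≤ p) :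
    cutPos τ e ((r : ℝ) • p) = r * cutPos τ e p := by
  rw [cutPos, toFun_smul he hp, ENNReal.toReal_mul, ENNReal.coe_toReal]
  rfl

theorem cutVal_smul (r : ℝ) (x : Unitization ℂ A) : cutVal τ e (r • x) = r * cutVal τ e x := by
  set h : (Unitization ℂ A) := (realPart x : Unitization ℂ A)
  have hh : IsSelfAdjoint h := (realPart x).2
  have hd : h = h⁺ - h⁻ := (CFC.posPart_sub_negPart h hh).symm
  have hr : (realPart (r • x) : Unitization ℂ A) = r • h := by rw [map_smul]; rfl
  rcases le_or_gt 0 r with hr0 | hr0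
  · lift r to ℝ≥0 using hr0
    rw [cutVal_eq he hτ (p := (r : ℝ) • h⁺) (q := (r : ℝ) • h⁻)
      (smul_nonneg r.2 (CFC.posPart_nonneg h)) (smul_nonneg r.2 (CFC.negPart_nonneg h))
      (by rw [hr, ← smul_sub, ← hd]), cutVal_smul_nonneg he _ _ (CFC.posPart_nonneg h),
      cutVal_smul_nonneg he _ _ (CFC.negPart_nonneg h), cutVal]
    ring
  · obtain ⟨s, rfl⟩ : ∃ s : ℝ≥0, r = -(s : ℝ) := ⟨(-r).toNNReal, by rw [Real.coe_toNNReal _ (by linarith)]; ring⟩
    rw [cutVal_eq he hτ (p := (s : ℝ) • h⁻) (q := (s : ℝ) • h⁺)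
      (smul_nonneg s.2 (CFC.negPart_nonneg h)) (smul_nonneg s.2 (CFC.posPart_nonneg h))
      (by rw [hr, ← smul_sub, neg_smul, ← smul_neg, hd, neg_sub, ← hd]), cutVal_smul_nonneg he _ _ (CFC.posPart_nonneg h),
      cutVal_smul_nonneg he _ _ (CFC.negPart_nonneg h), cutVal]
    ring

/-- The cut weight as a real linear functional. -/
def cutFun : (Unitization ℂ A) →ₗ[ℝ] ℝ where
  toFun := cutVal τ e
  map_add' := cutVal_add he hτ
  map_smul' r x := by rw [cutVal_smul he hτ]; rfl

theorem cutFun_apply (x : Unitization ℂ A) : cutFun he hτ x = cutVal τ e x := rfl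

theorem cutFun_nonneg (x : Unitization ℂ A) : 0 ≤ cutFun he hτ (star x * x) := by
  rw [cutFun_apply, cutVal_of_nonneg he hτ (star_mul_self_nonneg x)]
  exact ENNReal.toReal_nonneg

theorem abs_cutFun_le (x : Unitization ℂ A) : |cutFun he hτ x| ≤ ‖x‖ := abs_cutVal_le he hτ x

theorem cutFun_sq_comm {p : (Unitization ℂ A)} (h1 : inr e * p = p) (h2 : p * inr e = p) :
    cutFun he hτ (star p * p) = cutFun he hτ (p * star p) := by
  rw [cutFun_apply, cutFun_apply, cutVal_of_nonneg he hτ (star_mul_self_nonneg p),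
    cutVal_of_nonneg he hτ (mul_star_self_nonneg p), cutPos, cutPos]
  congr 1
  have hs1 : inr e * star p = star p := by
    conv_rhs => rw [← h2, star_mul, ← inr_star, he.star_eq]
  have hs2 : star p * inr e = star p := by
    conv_rhs => rw [← h1, star_mul, ← inr_star, he.star_eq]
  rw [show inr e * (star p * p) * inr e = star p * p by rw [← mul_assoc, hs1, mul_assoc, h2],
    show inr e * (p * star p) * inr e = p * star p by rw [← mul_assoc, h1, mul_assoc, hs2]]
  have hp : (inr p.snd : Unitization ℂ A) = p := by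
    refine Unitization.ext ?_ (by simp)
    conv_rhs => rw [← h1]
    simp
  rw [← hp, ← inr_star, ← inr_mul, ← inr_mul, snd_inr, snd_inr, τ.tracial]

/-- Traciality on the elements fixed by `e` on both sides. -/
theorem cutFun_comm {p q : (Unitization ℂ A)} (hp1 : inr e * p = p) (hp2 : p * inr e = p)
    (hq1 : inr e * q = q) (hq2 : q * inr e = q) :
    cutFun he hτ (p * q) = cutFun he hτ (q * p) := by
  have hs : ∀ r : (Unitization ℂ A), inr e * r = r → star r * inr e = star r := fun r h => by
    conv_rhs => rw [← h, star_mul, ← inr_star, he.star_eq]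
  have hs' : ∀ r : (Unitization ℂ A), r * inr e = r → inr e * star r = star r := fun r h => by
    conv_rhs => rw [← h, star_mul, ← inr_star, he.star_eq]
  have key : ∀ r s : (Unitization ℂ A), inr e * r = r → r * inr e = r → inr e * s = s → s * inr e = s →
      cutFun he hτ (star r * s) = cutFun he hτ (s * star r) := by
    intro r s r1 r2 s1 s2
    have h := cutFun_sq_comm he hτ (p := r + s) (by rw [mul_add, r1, s1]) (by rw [add_mul, r2, s2])
    have e1 : cutFun he hτ (star s * r) = cutFun he hτ (star r * s) := by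
      rw [cutFun_apply, cutFun_apply, ← cutVal_star (star s * r), star_mul, star_star]
    have e2 : cutFun he hτ (r * star s) = cutFun he hτ (s * star r) := by
      rw [cutFun_apply, cutFun_apply, ← cutVal_star (r * star s), star_mul, star_star]
    simp only [star_add, add_mul, mul_add, map_add, cutFun_sq_comm he hτ r1 r2,
      cutFun_sq_comm he hτ s1 s2, e1, e2] at h
    linarith
  have := key (star p) q (hs' p hp2) (hs p hp1) hq1 hq2
  rwa [star_star] at this

end

end Vale.P095.Nonunital
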