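import Vale.Agent.P095.Nonunital.FA
import Vale.Agent.P095.Nonunital.WeightFun
import Vale.Agent.P095.Tracial.Limit

/-!
# P095: traces on `F(A)` from tracial weights on `A`

For self-adjoint `e, c` in `A` with `e * c = c`, `b = c * c` and weights `τ n` with
`τ n (e * e) ≤ 1`, the map `x ↦ lim_ω τ n (b x_n b)` is a bounded positive trace on `F(A)`.
Hence an estimate valid for all traces of `F(A)` holds on representatives, uniformly over the
weights with `τ (e * e) ≤ 1`.
-/

open scoped BoundedContinuousFunction NNReal ENNReal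
open Filter Topology

namespace Vale.P095.Nonunital

open Vale.P101 Unitization
open Vale.P095.Tracial (IsTrace rep cls_rep)

noncomputable section

variable {A : Type*} [NonUnitalCStarAlgebra A]

namespace UnitPair

variable (p : UnitPair A)

theorem fix' : p.c * p.e = p.c := by
  have h := congrArg star p.fix
  rwa [star_mul, p.c_sa.star_eq, p.e_sa.star_eq] at h

theorem bi_eq : p.bi = inr (p.c * p.c) := (inr_mul ℂ p.c p.c).symm

theorem ci_sa : IsSelfAdjoint p.ci := by
  rw [ci, IsSelfAdjoint, ← inr_star, p.c_sa.star_eq]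

theorem bi_sa : IsSelfAdjoint p.bi := by
  rw [bi, IsSelfAdjoint, star_mul, p.ci_sa.star_eq]

theorem e_ci : inr p.e * p.ci = p.ci := by rw [ci, ← inr_mul, p.fix]

theorem ci_e : p.ci * inr p.e = p.ci := by rw [ci, ← inr_mul, p.fix']

/-- The weights normalised at `e * e`. -/
abbrev Normed (τ : TraceWeight A) : Prop := τ.toFun (p.e * p.e) ≤ 1

/-- The value `τ (b x b)` of a normalised weight. -/
def val (τ : TraceWeight A) (hτ : p.Normed τ) (x : Unitization ℂ A) : ℝ :=
  cutFun p.e_sa hτ (p.bi * x * p.bi)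

variable {p} {τ : TraceWeight A} (hτ : p.Normed τ)

theorem val_add (x y : Unitization ℂ A) : p.val τ hτ (x + y) = p.val τ hτ x + p.val τ hτ y := by
  simp only [val, mul_add, add_mul, map_add]

theorem val_smul (r : ℝ) (x : Unitization ℂ A) : p.val τ hτ (r • x) = r * p.val τ hτ x := by
  simp only [val, mul_smul_comm, smul_mul_assoc, map_smul, smul_eq_mul]

theorem val_sub (x y : Unitization ℂ A) : p.val τ hτ (x - y) = p.val τ hτ x - p.val τ hτ y := by
  simp only [val, mul_sub, sub_mul, map_sub]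

theorem val_star (x : Unitization ℂ A) : p.val τ hτ (star x) = p.val τ hτ x := by
  have h : p.bi * star x * p.bi = star (p.bi * x * p.bi) := by
    rw [star_mul, star_mul, p.bi_sa.star_eq, mul_assoc]
  rw [val, val, h, cutFun_apply, cutFun_apply, cutVal_star]

theorem val_nonneg (x : Unitization ℂ A) : 0 ≤ p.val τ hτ (star x * x) := by
  have h : p.bi * (star x * x) * p.bi = star (x * p.bi) * (x * p.bi) := by
    rw [star_mul, p.bi_sa.star_eq]; simp only [mul_assoc]
  rw [val, h]
  exact cutFun_nonneg _ _ _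

theorem abs_val_le (x : Unitization ℂ A) : |p.val τ hτ x| ≤ ‖p.bi‖ * ‖x * p.bi‖ := by
  refine (abs_cutFun_le _ _ _).trans ?_
  rw [mul_assoc]
  exact norm_mul_le _ _

theorem abs_val_le' (x : Unitization ℂ A) : |p.val τ hτ x| ≤ ‖p.bi‖ * ‖p.bi‖ * ‖x‖ := by
  refine (abs_val_le hτ x).trans ?_
  rw [mul_assoc, mul_comm ‖p.bi‖ ‖x‖]
  exact mul_le_mul_of_nonneg_left (norm_mul_le _ _) (norm_nonneg _)

theorem val_comm_le (x y : Unitization ℂ A) : |p.val τ hτ (x * y) - p.val τ hτ (y * x)| ≤
    2 * (‖p.ci‖ ^ 3 * (‖p.ci * x - x * p.ci‖ * ‖y‖ + ‖x‖ * ‖p.ci * y - y * p.ci‖)) := by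
  set c := p.ci with hc
  have key : ∀ x y : (Unitization ℂ A), |p.val τ hτ (x * y) - cutFun p.e_sa hτ ((c * x * c) * (c * y * c))| ≤
      ‖c‖ ^ 3 * (‖c * x - x * c‖ * ‖y‖ + ‖x‖ * ‖c * y - y * c‖) := by
    intro x y
    rw [val, ← map_sub]
    refine (abs_cutFun_le _ _ _).trans ?_
    have e1 : p.bi * (x * y) * p.bi - c * x * c * (c * y * c) =
        c * ((c * x - x * c) * y * c + x * c * (y * c - c * y)) * c := by
      simp only [bi, ← hc]
      noncomm_ring
    rw [e1]
    have n1 : ‖(c * x - x * c) * y * c‖ ≤ ‖c * x - x * c‖ * ‖y‖ * ‖c‖ :=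
      (norm_mul_le _ _).trans (mul_le_mul_of_nonneg_right (norm_mul_le _ _) (norm_nonneg _))
    have n2 : ‖x * c * (y * c - c * y)‖ ≤ ‖x‖ * ‖c‖ * ‖c * y - y * c‖ := by
      rw [norm_sub_rev (c * y)]
      exact (norm_mul_le _ _).trans (mul_le_mul_of_nonneg_right (norm_mul_le _ _) (norm_nonneg _))
    calc _ ≤ ‖c‖ * ‖(c * x - x * c) * y * c + x * c * (y * c - c * y)‖ * ‖c‖ :=
          (norm_mul_le _ _).trans (mul_le_mul_of_nonneg_right (norm_mul_le _ _) (norm_nonneg _))
      _ ≤ ‖c‖ * (‖c * x - x * c‖ * ‖y‖ * ‖c‖ + ‖x‖ * ‖c‖ * ‖c * y - y * c‖) * ‖c‖ := by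
          gcongr
          exact (norm_add_le _ _).trans (add_le_add n1 n2)
      _ = _ := by ring
  have hfix : ∀ x : (Unitization ℂ A), inr p.e * (c * x * c) = c * x * c ∧ (c * x * c) * inr p.e = c * x * c :=
    fun x => ⟨by rw [← mul_assoc, ← mul_assoc, hc, p.e_ci], by rw [mul_assoc, hc, p.ci_e]⟩
  have h := cutFun_comm p.e_sa hτ (hfix x).1 (hfix x).2 (hfix y).1 (hfix y).2
  have h2 := key y x
  rw [← h] at h2
  have := abs_sub_le (p.val τ hτ (x * y)) (cutFun p.e_sa hτ ((c * x * c) * (c * y * c)))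
    (p.val τ hτ (y * x))
  have a1 := abs_sub_comm (p.val τ hτ (y * x)) (cutFun p.e_sa hτ ((c * x * c) * (c * y * c)))
  have a2 := abs_sub_comm (p.val τ hτ (x * y)) (p.val τ hτ (y * x))
  nlinarith [key x y]

theorem val_one_le : p.val τ hτ 1 ≤ ‖p.bi‖ * ‖p.bi‖ := by
  have h := (le_abs_self _).trans (abs_val_le hτ (1 : Unitization ℂ A))
  rwa [one_mul] at h

end UnitPair

section Limit

variable (ω : Ultrafilter ℕ) (p : UnitPair A) {τs : ℕ → TraceWeight A}
  (hτs : ∀ n, p.Normed (τs n))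

theorem exists_lim (f : ℕ →ᵇ (Unitization ℂ A)) :
    ∃ L : ℝ, Tendsto (fun n => p.val (τs n) (hτs n) (f n)) ω (𝓝 L) := by
  set R := ‖p.bi‖ * ‖p.bi‖ * ‖f‖
  obtain ⟨L, -, hL⟩ := (isCompact_Icc (a := -R) (b := R)).ultrafilter_le_nhds
    (ω.map fun n => p.val (τs n) (hτs n) (f n)) (by
      rw [Ultrafilter.coe_map, Filter.le_principal_iff, Filter.mem_map]
      exact Filter.univ_mem' fun n => abs_le.1 ((UnitPair.abs_val_le' (hτs n) _).trans
        (mul_le_mul_of_nonneg_left (f.norm_coe_le_norm n) (by positivity))))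
  rw [Ultrafilter.coe_map] at hL
  exact ⟨L, hL⟩

theorem lim_zero_of_ann {x : Central (Unitization ℂ A) ω} (hx : x ∈ (annIdeal (Unitization ℂ A) ω (inrSet A)).toIdeal)
    {f : ℕ →ᵇ (Unitization ℂ A)} (hf : cls ω f = (x : Ultrapower (Unitization ℂ A) ω)) :
    Tendsto (fun n => p.val (τs n) (hτs n) (f n)) ω (𝓝 0) := by
  have h0 := ((mem_annIdeal _ ω _).1 hx _ ⟨p.c * p.c, rfl⟩).1
  rw [← p.bi_eq, ← hf, show constSeq ω p.bi = cls ω (BoundedContinuousFunction.const ℕ p.bi) from rfl,
    ← map_mul, ← map_zero (cls ω), cls_eq_cls, sub_zero, mem_nullSeq] at h0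
  refine squeeze_zero_norm (fun n => ?_) (by simpa using h0.const_mul ‖p.bi‖)
  simpa using UnitPair.abs_val_le (hτs n) (f n)

/-- A lift of an element of `F(A)`. -/
def liftFA (y : FA A ω) : Central (Unitization ℂ A) ω := Classical.choose (relProj_surjective (Unitization ℂ A) ω (inrSet A) y)

theorem relProj_liftFA (y : FA A ω) : relProj (Unitization ℂ A) ω (inrSet A) (liftFA ω y) = y :=
  Classical.choose_spec (relProj_surjective (Unitization ℂ A) ω (inrSet A) y)

/-- The limit value on `F(A)`. -/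
def limFA (y : FA A ω) : ℝ := Classical.choose (exists_lim ω p hτs (rep ω (liftFA ω y)))

theorem tendsto_limFA {y : FA A ω} {x : Central (Unitization ℂ A) ω} (hx : relProj (Unitization ℂ A) ω (inrSet A) x = y)
    {f : ℕ →ᵇ (Unitization ℂ A)} (hf : cls ω f = (x : Ultrapower (Unitization ℂ A) ω)) :
    Tendsto (fun n => p.val (τs n) (hτs n) (f n)) ω (𝓝 (limFA ω p hτs y)) := by
  have h1 := Classical.choose_spec (exists_lim ω p hτs (rep ω (liftFA ω y)))
  have hann : x - liftFA ω y ∈ (annIdeal (Unitization ℂ A) ω (inrSet A)).toIdeal := by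
    rw [← relProj_eq_zero, map_sub, hx, relProj_liftFA, sub_self]
  have h2 := lim_zero_of_ann ω p hτs hann (f := f - rep ω (liftFA ω y))
    (by rw [map_sub, hf, cls_rep]; rfl)
  have h3 := h2.add h1
  rw [zero_add] at h3
  refine h3.congr fun n => ?_
  rw [BoundedContinuousFunction.sub_apply, UnitPair.val_sub, sub_add_cancel]

/-- The trace `x ↦ lim_ω τ n (b x_n b)` on `F(A)`. -/
def limTraceFA : FA A ω →ₗ[ℝ] ℝ where
  toFun := limFA ω p hτs
  map_add' y z := by
    refine tendsto_nhds_unique (tendsto_limFA ω p hτs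
      (x := liftFA ω y + liftFA ω z) (by rw [map_add, relProj_liftFA, relProj_liftFA])
      (f := rep ω (liftFA ω y) + rep ω (liftFA ω z)) (by rw [map_add, cls_rep, cls_rep]; rfl)) ?_
    exact ((tendsto_limFA ω p hτs (relProj_liftFA ω y) (cls_rep ω _)).add
      (tendsto_limFA ω p hτs (relProj_liftFA ω z) (cls_rep ω _))).congr
      fun n => by simp [UnitPair.val_add]
  map_smul' r y := by
    refine tendsto_nhds_unique (tendsto_limFA ω p hτs
      (x := (r : ℂ) • liftFA ω y) (by rw [map_smul, relProj_liftFA, Complex.coe_smul])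
      (f := (r : ℂ) • rep ω (liftFA ω y)) (by rw [map_smul, cls_rep]; rfl)) ?_
    exact ((tendsto_limFA ω p hτs (relProj_liftFA ω y) (cls_rep ω _)).const_mul r).congr
      fun n => by simp [UnitPair.val_smul, Complex.coe_smul]

theorem isTrace_limTraceFA : IsTrace (limTraceFA ω p hτs) where
  nonneg y := by
    refine ge_of_tendsto' (tendsto_limFA ω p hτs
      (x := star (liftFA ω y) * liftFA ω y) (by rw [map_mul, map_star, relProj_liftFA])
      (f := star (rep ω (liftFA ω y)) * rep ω (liftFA ω y))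
      (by rw [map_mul, ← star_cls, cls_rep]; rfl)) fun n => ?_
    exact UnitPair.val_nonneg _ _
  comm y z := by
    set f := rep ω (liftFA ω y)
    set g := rep ω (liftFA ω z)
    have hyz := tendsto_limFA ω p hτs (x := liftFA ω y * liftFA ω z) (y := y * z)
      (by rw [map_mul, relProj_liftFA, relProj_liftFA]) (f := f * g)
      (by rw [map_mul, cls_rep, cls_rep]; rfl)
    have hzy := tendsto_limFA ω p hτs (x := liftFA ω z * liftFA ω y) (y := z * y)
      (by rw [map_mul, relProj_liftFA, relProj_liftFA]) (f := g * f)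
      (by rw [map_mul, cls_rep, cls_rep]; rfl)
    refine tendsto_nhds_unique hyz ?_
    have hc : ∀ w : FA A ω, Tendsto
        (fun n => ‖p.ci * rep ω (liftFA ω w) n - rep ω (liftFA ω w) n * p.ci‖) ω (𝓝 0) := by
      intro w
      have := tendsto_of_commute_cls ω (f := rep ω (liftFA ω w))
        (g := BoundedContinuousFunction.const ℕ p.ci)
        (by rw [cls_rep]; exact ((mem_central ω).1 (liftFA ω w).2 p.ci).symm)
      simpa [norm_sub_rev] using this
    have hlim := ((((hc y).mul_const ‖g‖).add ((hc z).const_mul ‖f‖)).const_mul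
      (‖p.ci‖ ^ 3)).const_mul 2
    simp only [mul_zero, zero_mul, add_zero] at hlim
    have hd : Tendsto (fun n => p.val (τs n) (hτs n) ((f * g) n) -
        p.val (τs n) (hτs n) ((g * f) n)) ω (𝓝 0) := by
      refine squeeze_zero_norm (fun n => ?_) hlim
      refine (UnitPair.val_comm_le (hτs n) (f n) (g n)).trans ?_
      gcongr
      · exact g.norm_coe_le_norm n
      · exact f.norm_coe_le_norm n
    have h := hd.add hzy
    rw [zero_add] at h
    exact h.congr fun n => sub_add_cancel _ _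
  map_star y := by
    refine tendsto_nhds_unique (tendsto_limFA ω p hτs (x := star (liftFA ω y))
      (by rw [map_star, relProj_liftFA]) (f := star (rep ω (liftFA ω y)))
      (by rw [← star_cls, cls_rep]; rfl)) ?_
    exact (tendsto_limFA ω p hτs (relProj_liftFA ω y) (cls_rep ω _)).congr
      fun n => by simp [UnitPair.val_star]

theorem limTraceFA_one_le : limTraceFA ω p hτs 1 ≤ ‖p.bi‖ * ‖p.bi‖ :=
  le_of_tendsto' (tendsto_limFA ω p hτs (x := 1) (map_one _) (f := 1) (by simp))
    fun n => UnitPair.val_one_le (hτs n)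

end Limit

/-- The zero weight. -/
def TraceWeight.zero : TraceWeight A where
  toFun _ := 0
  add _ _ := by simp
  smul _ _ := by simp
  tracial _ := rfl

/-- An estimate for all traces of `F(A)` holds eventually, uniformly over the normalised weights. -/
theorem eventually_val_le (ω : Ultrafilter ℕ) (p : UnitPair A) {x : Central (Unitization ℂ A) ω} {ε : ℝ}
    (hε : 0 ≤ ε)
    (hx : ∀ t : FA A ω →ₗ[ℝ] ℝ, IsTrace t → t (relProj (Unitization ℂ A) ω (inrSet A) x) ≤ ε * t 1)
    {f : ℕ →ᵇ (Unitization ℂ A)} (hf : cls ω f = (x : Ultrapower (Unitization ℂ A) ω)) {δ : ℝ} (hδ : 0 < δ) :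
    ∀ᶠ n in (ω : Filter ℕ), ∀ τ : TraceWeight A, ∀ hτ : p.Normed τ,
      p.val τ hτ (f n) ≤ ε * (‖p.bi‖ * ‖p.bi‖) + δ := by
  classical
  set K : ℝ := ε * (‖p.bi‖ * ‖p.bi‖) + δ
  let bad : ℕ → TraceWeight A → Prop := fun n σ =>
    ∃ h : p.Normed σ, K < p.val σ h (f n)
  let τs : ℕ → TraceWeight A := fun n =>
    if hn : ∃ σ, bad n σ then Classical.choose hn else TraceWeight.zero
  have hτs : ∀ n, p.Normed (τs n) := fun n => by
    simp only [τs]
    split_ifs with hn
    · exact (Classical.choose_spec hn).1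
    · exact (zero_le_one : (0 : ℝ≥0∞) ≤ 1)
  have hlt : limTraceFA ω p hτs (relProj (Unitization ℂ A) ω (inrSet A) x) < K := by
    have h1 := hx _ (isTrace_limTraceFA ω p hτs)
    have h2 := mul_le_mul_of_nonneg_left (limTraceFA_one_le ω p hτs) hε
    linarith
  filter_upwards [(tendsto_limFA ω p hτs rfl hf).eventually_lt_const hlt] with n hn σ hσ
  by_contra hc
  have hb : ∃ σ, bad n σ := ⟨σ, hσ, lt_of_not_ge hc⟩
  have h' : bad n (τs n) := by
    simp only [τs, dif_pos hb]
    exact Classical.choose_spec hb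
  obtain ⟨h, h''⟩ := h'
  exact lt_irrefl K (h''.trans hn)

/-- The two-sided form for elements killed by all traces of `F(A)`. -/
theorem eventually_abs_val_le (ω : Ultrafilter ℕ) (p : UnitPair A) {x : Central (Unitization ℂ A) ω}
    (hx : ∀ t : FA A ω →ₗ[ℝ] ℝ, IsTrace t → t (relProj (Unitization ℂ A) ω (inrSet A) x) = 0)
    {f : ℕ →ᵇ (Unitization ℂ A)} (hf : cls ω f = (x : Ultrapower (Unitization ℂ A) ω)) {δ : ℝ} (hδ : 0 < δ) :
    ∀ᶠ n in (ω : Filter ℕ), ∀ τ : TraceWeight A, ∀ hτ : p.Normed τ,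
      |p.val τ hτ (f n)| ≤ δ := by
  have h1 := eventually_val_le ω p le_rfl (x := x) (fun t ht => by rw [hx t ht, zero_mul]) hf hδ
  have h2 := eventually_val_le ω p le_rfl (x := -x)
    (fun t ht => by rw [map_neg, map_neg, hx t ht, zero_mul, neg_zero])
    (f := -f) (by rw [map_neg, hf]; rfl) hδ
  filter_upwards [h1, h2] with n a1 a2 σ hσ
  have a := a1 σ hσ
  have b := a2 σ hσ
  have e : p.val σ hσ ((-f) n) = -p.val σ hσ (f n) := by
    simp [UnitPair.val]
  rw [e, zero_mul, zero_add] at b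
  rw [zero_mul, zero_add] at a
  exact abs_le.2 ⟨by linarith, a⟩

end

end Vale.P095.Nonunital
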