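import Vale.Agent.P095.Nonunital.GammaFA
import Vale.Agent.P095.McDuff.SysMain
import Vale.Agent.P095.Nonunital.LocallyFinite

/-!
# P095: equivariant uniform McDuff property for nonunital algebras

If `F(A)` has no characters and `G` is amenable then, for finitely many unit pairs `(e, c)`, there
is an almost central, almost invariant contraction in `(Unitization ℂ A)` satisfying the relations of a generator of
`M₂` below `b = c * c`, uniformly over the weights with `τ (e * e) ≤ 1`.
-/

open scoped BoundedContinuousFunction ENNReal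
open Filter Topology

namespace Vale.P095.Nonunital

open Vale.P101 Unitization
open Vale.P095.Tracial (IsTrace IsFolner)

noncomputable section

/-- A contraction lifts through a surjective homomorphism to one. -/
theorem exists_lift_contraction {B E : Type*} [CStarAlgebra B] [CStarAlgebra E]
    (π : B →⋆ₐ[ℂ] E) (hπ : Function.Surjective π) {y : E} (hy : ‖y‖ ≤ 1) :
    ∃ x : B, ‖x‖ ≤ 1 ∧ π x = y := by
  letI := CStarAlgebra.spectralOrder B
  haveI := CStarAlgebra.spectralOrderedRing B
  letI := CStarAlgebra.spectralOrder E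
  haveI := CStarAlgebra.spectralOrderedRing E
  obtain ⟨x₀, hx₀⟩ := hπ y
  let f : ℝ → ℝ := fun r => (Real.sqrt (max 1 r))⁻¹
  have hf : Continuous f := Continuous.inv₀ (by fun_prop) fun r =>
    (Real.sqrt_pos.2 (lt_max_of_lt_left one_pos)).ne'
  set m := cfc f (star x₀ * x₀) with hm
  refine ⟨x₀ * m, ?_, ?_⟩
  · have hmsa : IsSelfAdjoint m := cfc_predicate f _
    have e : star (x₀ * m) * (x₀ * m) = cfc (fun r => f r * r * f r) (star x₀ * x₀) := by
      have hid : star x₀ * x₀ = cfc (id : ℝ → ℝ) (star x₀ * x₀) := (cfc_id ℝ _).symm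
      rw [star_mul, hmsa.star_eq, mul_assoc, ← mul_assoc (star x₀) x₀, hm]
      conv_lhs => arg 2; arg 1; rw [hid]
      rw [← cfc_mul id f _ continuous_id.continuousOn hf.continuousOn,
        ← cfc_mul f (fun r => id r * f r) _ hf.continuousOn (continuous_id.mul hf).continuousOn]
      simp only [id_eq, mul_assoc]
    have h2 : ‖star (x₀ * m) * (x₀ * m)‖ ≤ 1 := by
      rw [e]
      refine norm_cfc_le zero_le_one fun r hr => ?_
      have hr0 : 0 ≤ r := spectrum_nonneg_of_nonneg (star_mul_self_nonneg x₀) hr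
      have hs : 0 < Real.sqrt (max 1 r) := Real.sqrt_pos.2 (lt_max_of_lt_left one_pos)
      have hsq := Real.mul_self_sqrt (zero_le_one.trans (le_max_left 1 r))
      rw [Real.norm_of_nonneg (by positivity)]
      simp only [f]
      rw [mul_comm _ r, mul_assoc, ← mul_inv, hsq, ← div_eq_mul_inv, div_le_one (by positivity)]
      exact le_max_right _ _
    rw [CStarRing.norm_star_mul_self] at h2
    nlinarith [norm_nonneg (x₀ * m)]
  · have hcont : Continuous π :=
      AddMonoidHomClass.continuous_of_bound π 1 fun z => by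
        rw [one_mul]; exact NonUnitalStarAlgHom.norm_apply_le π z
    rw [map_mul, hx₀, hm, StarAlgHomClass.map_cfc π f (star x₀ * x₀) hf.continuousOn hcont
      (IsSelfAdjoint.star_mul_self x₀) ((IsSelfAdjoint.star_mul_self x₀).map π),
      map_mul, map_star, hx₀]
    have h1 : cfc f (star y * y) = 1 := by
      refine (cfc_congr fun r hr => ?_).trans (cfc_const_one ℝ (star y * y))
      rcases subsingleton_or_nontrivial E with hE | hE
      · simp [spectrum.of_subsingleton] at hr
      · have : ‖r‖ ≤ 1 := (spectrum.norm_le_norm_of_mem hr).trans (by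
          rw [CStarRing.norm_star_mul_self]; nlinarith [norm_nonneg y])
        rw [Real.norm_eq_abs, abs_le] at this
        simp [f, max_eq_left this.2]
    rw [h1, mul_one]

variable {A : Type*} [NonUnitalCStarAlgebra A] [TopologicalSpace.SeparableSpace A]

attribute [local instance] CStarAlgebra.spectralOrder CStarAlgebra.spectralOrderedRing

variable {G : Type*} [Group G] [Countable G] {ω : Ultrafilter ℕ}

/-- Nonunital equivariant uniform McDuff property. -/
theorem exists_mcduff_FA (hω : (ω : Filter ℕ) ≤ cofinite) (α : G →* (A ≃⋆ₐ[ℂ] A))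
    (hchar : NoCharacters (FA A ω)) (hG : IsFolner G) (D : Finset A) (P : Finset (UnitPair A))
    (S : Finset G) {ε : ℝ} (hε : 0 < ε) :
    ∃ x : (Unitization ℂ A), ‖x‖ ≤ 1 ∧ (∀ a ∈ D, ‖x * inr a - inr a * x‖ ≤ ε) ∧
      ∀ p ∈ P, ∀ τ : TraceWeight A, τ.toFun (p.e * p.e) ≤ 1 →
        τ.toFun (p.cut (star (x * x) * (x * x))) ≤ ENNReal.ofReal ε ∧
        τ.toFun (p.cut (star (star x * x + x * star x - 1) * (star x * x + x * star x - 1))) ≤
          ENNReal.ofReal ε ∧
        ∀ g ∈ S, τ.toFun (p.cut (star (extAction α g x - x) * (extAction α g x - x))) ≤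
          ENNReal.ofReal ε := by
  set C : ℝ := ∑ p ∈ P, ‖p.bi‖ * ‖p.bi‖ + 1 with hC
  have hC0 : 0 < C := by positivity
  obtain ⟨y, hy, hyt⟩ := Vale.P095.McDuff.exists_mcduff_sys (sysFA hω α) hchar hG S
    (show 0 < ε / (2 * C) by positivity)
  obtain ⟨x, hx, hxy⟩ := exists_lift_contraction (relProj (Unitization ℂ A) ω (inrSet A))
    (relProj_surjective (Unitization ℂ A) ω (inrSet A)) hy
  obtain ⟨f, hf, hfn⟩ := Vale.P095.McDuff.exists_rep_contraction hx
  have hb : ∀ p ∈ P, ε / (2 * C) * (‖p.bi‖ * ‖p.bi‖) + ε / 2 ≤ ε := fun p hp => by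
    have h1 : ‖p.bi‖ * ‖p.bi‖ ≤ C := by
      have := Finset.single_le_sum (f := fun q : UnitPair A => ‖q.bi‖ * ‖q.bi‖)
        (fun q _ => by positivity) hp
      linarith
    have h2 : ε / (2 * C) * (‖p.bi‖ * ‖p.bi‖) ≤ ε / (2 * C) * C :=
      mul_le_mul_of_nonneg_left h1 (by positivity)
    have h3 : ε / (2 * C) * C = ε / 2 := by field_simp
    linarith
  have e1 : ∀ᶠ n in (ω : Filter ℕ), ∀ a ∈ D, ‖f n * inr a - inr a * f n‖ ≤ ε := by
    rw [eventually_all_finset]
    intro a _
    have := tendsto_of_commute_cls ω (f := f) (g := BoundedContinuousFunction.const ℕ (inr a : Unitization ℂ A))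
      (by rw [hf]; exact ((mem_central ω).1 x.2 (inr a)).symm)
    exact (by simpa using this : Tendsto (fun n => ‖f n * inr a - inr a * f n‖) ω (𝓝 0)).eventually
      (eventually_le_nhds hε)
  -- an estimate for all traces of `F(A)` on `star z * z`
  have key : ∀ (z : Central (Unitization ℂ A) ω) (k : ℕ →ᵇ (Unitization ℂ A)), cls ω k = (z : Ultrapower (Unitization ℂ A) ω) →
      (∀ t : FA A ω →ₗ[ℝ] ℝ, IsTrace t →
        t (star (relProj (Unitization ℂ A) ω (inrSet A) z) * relProj (Unitization ℂ A) ω (inrSet A) z) ≤ ε / (2 * C) * t 1) →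
      ∀ᶠ n in (ω : Filter ℕ), ∀ p ∈ P, ∀ τ : TraceWeight A, τ.toFun (p.e * p.e) ≤ 1 →
        τ.toFun (p.cut (star (k n) * k n)) ≤ ENNReal.ofReal ε := by
    intro z k hk hz
    rw [eventually_all_finset]
    intro p hp
    filter_upwards [eventually_val_le ω p (x := star z * z)
      (by positivity : (0 : ℝ) ≤ ε / (2 * C))
      (fun t h => by rw [map_mul, map_star]; exact hz t h) (f := star k * k)
      (by rw [map_mul, ← star_cls, hk]; rfl) (half_pos hε)] with n hn τ hτ
    rw [p.toFun_cut hτ (star_mul_self_nonneg (k n))]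
    refine ENNReal.ofReal_le_ofReal (le_trans ?_ (hb p hp))
    simpa using hn τ hτ
  have e2 := key (x * x) (f * f) (by rw [map_mul, hf]; rfl)
    (fun t h => by rw [map_mul (relProj (Unitization ℂ A) ω (inrSet A)), hxy]; exact (hyt t h).1)
  have e3 := key (star x * x + x * star x - 1) (star f * f + f * star f - 1)
    (by rw [map_sub, map_add, map_mul, map_mul, map_one, ← star_cls, hf]; rfl)
    (fun t h => by
      rw [map_sub (relProj (Unitization ℂ A) ω (inrSet A)), map_add (relProj (Unitization ℂ A) ω (inrSet A)),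
        map_mul (relProj (Unitization ℂ A) ω (inrSet A)), map_mul (relProj (Unitization ℂ A) ω (inrSet A)),
        map_one (relProj (Unitization ℂ A) ω (inrSet A)), map_star (relProj (Unitization ℂ A) ω (inrSet A)), hxy]
      exact (hyt t h).2.1)
  have e4 : ∀ᶠ n in (ω : Filter ℕ), ∀ g ∈ S, ∀ p ∈ P, ∀ τ : TraceWeight A,
      τ.toFun (p.e * p.e) ≤ 1 →
      τ.toFun (p.cut (star (extAction α g (f n) - f n) * (extAction α g (f n) - f n))) ≤
        ENNReal.ofReal ε := by
    rw [eventually_all_finset]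
    intro g hg
    exact key (actC ω (extAction α) g x - x)
      (bmap (StarAlgHomClass.toStarAlgHom (extAction α g)) f - f)
      (by rw [map_sub, ← actU_cls, hf]; rfl)
      (fun t h => by rw [map_sub (relProj (Unitization ℂ A) ω (inrSet A)), ← relAct_proj _ (inv_inrSet α), hxy]; exact (hyt t h).2.2 g hg)
  obtain ⟨n, hn1, hn2, hn3, hn4⟩ := (e1.and (e2.and (e3.and e4))).exists
  exact ⟨f n, hfn n, hn1, fun p hp τ hτ =>
    ⟨hn2 p hp τ hτ, hn3 p hp τ hτ, fun g hg => hn4 g hg p hp τ hτ⟩⟩

end

end Vale.P095.Nonunital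

namespace Vale.P095.Nonunital

open Vale.P101

/-- Full commutators leave no characters. -/
theorem noCharacters_of_full {E : Type*} [CStarAlgebra E] (h : Full (commSet E)) :
    NoCharacters E := by
  intro χ
  obtain ⟨n, u, c, v, hc, hs⟩ := h.exists_sum
  have h1 : χ 1 = 0 := by
    rw [← hs, map_sum]
    refine Finset.sum_eq_zero fun i _ => ?_
    obtain ⟨a, b, -, -, hab⟩ := hc i
    rw [map_mul, map_mul, hab, map_sub, map_mul, map_mul, mul_comm (χ a), sub_self, mul_zero,
      zero_mul]
  exact NonUnitalStarAlgHom.ext fun z => by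
    rw [← mul_one z, map_mul, h1, mul_zero]
    rfl

/-- `exists_mcduff_FA` with hypothesis and conclusion spelled out on sequences. -/
theorem exists_mcduff_seq {A : Type*} [NonUnitalCStarAlgebra A] [TopologicalSpace.SeparableSpace A]
    {G : Type*} [Group G] [Countable G] {ω : Ultrafilter ℕ} (hω : (ω : Filter ℕ) ≤ Filter.cofinite)
    (α : G →* (A ≃⋆ₐ[ℂ] A)) (hcomm : CommutatorsFull A ω) (hG : Vale.P095.Tracial.IsFolner G)
    (D : Finset A) (P : Finset (UnitPair A)) (S : Finset G) {ε : ℝ} (hε : 0 < ε) :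
    ∃ x : Unitization ℂ A, ‖x‖ ≤ 1 ∧
      (∀ a ∈ D, ‖x * (a : Unitization ℂ A) - (a : Unitization ℂ A) * x‖ ≤ ε) ∧
      ∀ p ∈ P, ∀ τ : TraceWeight A, τ.toFun (p.e * p.e) ≤ 1 →
        τ.toFun (p.cut (star (x * x) * (x * x))) ≤ ENNReal.ofReal ε ∧
        τ.toFun (p.cut (star (star x * x + x * star x - 1) * (star x * x + x * star x - 1))) ≤
          ENNReal.ofReal ε ∧
        ∀ g ∈ S, τ.toFun (p.cut (star (extMap (fun a => α g a) x - x) *
          (extMap (fun a => α g a) x - x))) ≤ ENNReal.ofReal ε := by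
  simp only [← extAction_eq_extMap]
  exact exists_mcduff_FA hω α (noCharacters_of_full (full_of_commutatorsFull hcomm)) hG D P S hε

end Vale.P095.Nonunital
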