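import Vale.Agent.P095.Nonunital.LimTrace
import Vale.Agent.P095.Nonunital.Gamma

/-!
# P095: equivariant uniform property Gamma for nonunital algebras

If `F(A)` has no characters and `G` is amenable then, for finitely many unit pairs `(e, c)`, there
is an almost central, almost invariant self-adjoint contraction in `(Unitization ℂ A)` which is a balanced almost
symmetry below `b = c * c`, uniformly over the weights with `τ (e * e) ≤ 1`.
-/

open scoped BoundedContinuousFunction ENNReal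
open Filter Topology

namespace Vale.P095.Nonunital

open Vale.P101 Unitization
open Vale.P095.Tracial (IsTrace IsFolner exists_rep_selfAdjoint)

noncomputable section

/-- A self-adjoint contraction lifts through a surjective homomorphism to one. -/
theorem exists_lift_sa_contraction {B E : Type*} [CStarAlgebra B] [CStarAlgebra E]
    (π : B →⋆ₐ[ℂ] E) (hπ : Function.Surjective π) {y : E} (hy : IsSelfAdjoint y) (hy1 : ‖y‖ ≤ 1) :
    ∃ x : B, IsSelfAdjoint x ∧ ‖x‖ ≤ 1 ∧ π x = y := by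
  obtain ⟨x₀, hx₀⟩ := hπ y
  set h : B := ((1 : ℂ) / 2) • (x₀ + star x₀) with hh
  have hsa : IsSelfAdjoint h := by simp [hh, IsSelfAdjoint, add_comm]
  have hπh : π h = y := by
    rw [hh, map_smul, map_add, map_star, hx₀, hy.star_eq, ← two_smul ℂ, smul_smul]
    norm_num
  let f : ℝ → ℝ := fun r => max (-1) (min 1 r)
  have hf : Continuous f := by fun_prop
  refine ⟨cfc f h, cfc_predicate f h, norm_cfc_le zero_le_one fun r _ => ?_, ?_⟩
  · exact abs_le.2 ⟨le_max_left _ _, max_le (by norm_num) (min_le_left _ _)⟩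
  · have hcont : Continuous π :=
      AddMonoidHomClass.continuous_of_bound π 1 fun z => by
        rw [one_mul]; exact NonUnitalStarAlgHom.norm_apply_le π z
    have hπsa : IsSelfAdjoint (π h) := hπh ▸ hy
    rw [StarAlgHomClass.map_cfc π f h hf.continuousOn hcont hsa hπsa, hπh]
    conv_rhs => rw [← cfc_id ℝ y hy]
    refine cfc_congr fun r hr => ?_
    rcases subsingleton_or_nontrivial E with hE | hE
    · simp [spectrum.of_subsingleton] at hr
    · have h1 : ‖r‖ ≤ 1 := ((spectrum.norm_le_norm_mul_of_mem hr).trans_eq (by rw [norm_one, mul_one])).trans hy1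
      rw [Real.norm_eq_abs, abs_le] at h1
      simp [f, h1.1, h1.2]

variable {A : Type*} [NonUnitalCStarAlgebra A]

attribute [local instance] CStarAlgebra.spectralOrder CStarAlgebra.spectralOrderedRing

/-- On positive elements the functional is the weight of `b q b`. -/
theorem UnitPair.toFun_cut {p : UnitPair A} {τ : TraceWeight A} (hτ : p.Normed τ) {q : (Unitization ℂ A)}
    (hq : 0 ≤ q) : τ.toFun (p.cut q) = ENNReal.ofReal (p.val τ hτ q) := by
  have h0 : 0 ≤ p.bi * q * p.bi := p.bi_sa.conjugate_nonneg hq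
  have he : inr p.e * (p.bi * q * p.bi) * inr p.e = p.bi * q * p.bi := by
    have a1 : inr p.e * p.bi = p.bi := by rw [UnitPair.bi, ← mul_assoc, p.e_ci]
    have a2 : p.bi * inr p.e = p.bi := by rw [UnitPair.bi, mul_assoc, p.ci_e]
    rw [← mul_assoc, ← mul_assoc, a1, mul_assoc (p.bi * q), a2]
  have hne := toFun_ne_top p.e_sa hτ h0
  rw [he] at hne
  rw [UnitPair.val, cutFun_apply, cutVal_of_nonneg p.e_sa hτ h0, cutPos, he]
  exact (ENNReal.ofReal_toReal hne).symm

theorem UnitPair.toReal_cut {p : UnitPair A} {τ : TraceWeight A} (hτ : p.Normed τ) {q : (Unitization ℂ A)}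
    (hq : 0 ≤ q) : (τ.toFun (p.cut q)).toReal = p.val τ hτ q := by
  rw [p.toFun_cut hτ hq, ENNReal.toReal_ofReal]
  obtain ⟨v, rfl⟩ := exists_sq hq
  exact UnitPair.val_nonneg hτ v

variable [TopologicalSpace.SeparableSpace A] {G : Type*} [Group G] [Countable G]
  {ω : Ultrafilter ℕ}

/-- Nonunital equivariant uniform property Gamma. -/
theorem exists_gamma_FA (hω : (ω : Filter ℕ) ≤ cofinite) (α : G →* (A ≃⋆ₐ[ℂ] A))
    (hchar : NoCharacters (FA A ω)) (hG : IsFolner G) (D : Finset A) (P : Finset (UnitPair A))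
    (S : Finset G) {ε : ℝ} (hε : 0 < ε) :
    ∃ u : (Unitization ℂ A), IsSelfAdjoint u ∧ ‖u‖ ≤ 1 ∧ (∀ a ∈ D, ‖u * inr a - inr a * u‖ ≤ ε) ∧
      ∀ p ∈ P, ∀ τ : TraceWeight A, τ.toFun (p.e * p.e) ≤ 1 →
        |(τ.toFun (p.cut (1 + u))).toReal - (τ.toFun (p.cut (1 - u))).toReal| ≤ ε ∧
        τ.toFun (p.cut (1 - u * u)) ≤ ENNReal.ofReal ε ∧
        ∀ g ∈ S, τ.toFun (p.cut ((extAction α g u - u) * (extAction α g u - u))) ≤
          ENNReal.ofReal ε := by
  set C : ℝ := ∑ p ∈ P, ‖p.bi‖ * ‖p.bi‖ + 1 with hC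
  have hC0 : 0 < C := by positivity
  obtain ⟨T, v, hv, hv1, hvt⟩ := exists_almost_invariant_sub (sysFA hω α)
    hchar hG S (ε / (2 * C)) (by positivity)
  obtain ⟨x, hx, hx1, hxv⟩ := exists_lift_sa_contraction (relProj (Unitization ℂ A) ω (inrSet A))
    (relProj_surjective (Unitization ℂ A) ω (inrSet A)) (y := (v : FA A ω)) (hv.map T.S.subtype) hv1
  obtain ⟨f, hf, hfn⟩ := exists_rep_selfAdjoint ω hx hx1
  have ht : ∀ t : FA A ω →ₗ[ℝ] ℝ, IsTrace t → t v = 0 ∧
      t (1 - (v : FA A ω) * v) ≤ ε / (2 * C) * t 1 ∧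
      ∀ g ∈ S, t (((sysFA hω α).act g (v : FA A ω) - (v : FA A ω)) *
        ((sysFA hω α).act g (v : FA A ω) - (v : FA A ω))) ≤ ε / (2 * C) * t 1 :=
    fun t h => hvt _ (h.pull T.S.subtype)
  have hb : ∀ p ∈ P, ε / (2 * C) * (‖p.bi‖ * ‖p.bi‖) + ε / 2 ≤ ε := fun p hp => by
    have h1 : ‖p.bi‖ * ‖p.bi‖ ≤ C := by
      have := Finset.single_le_sum (f := fun q : UnitPair A => ‖q.bi‖ * ‖q.bi‖)
        (fun q _ => by positivity) hp
      linarith
    have h2 : ε / (2 * C) * (‖p.bi‖ * ‖p.bi‖) ≤ ε / (2 * C) * C :=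
      mul_le_mul_of_nonneg_left h1 (by positivity)
    have h3 : ε / (2 * C) * C = ε / 2 := by field_simp
    linarith
  have e1 : ∀ᶠ n in (ω : Filter ℕ), ∀ a ∈ D, ‖f n * inr a - inr a * f n‖ ≤ ε := by
    rw [eventually_all_finset]
    intro a _
    have := tendsto_of_commute_cls ω (f := f) (g := BoundedContinuousFunction.const ℕ (inr a : Unitization ℂ A))
      (by rw [hf]; exact ((mem_central ω).1 x.2 (inr a)).symm)
    exact (by simpa using this : Tendsto (fun n => ‖f n * inr a - inr a * f n‖) ω (𝓝 0)).eventually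
      (eventually_le_nhds hε)
  have e2 : ∀ᶠ n in (ω : Filter ℕ), ∀ p ∈ P, ∀ τ : TraceWeight A, ∀ hτ : p.Normed τ,
      |p.val τ hτ (f n)| ≤ ε / 2 := by
    rw [eventually_all_finset]
    exact fun p _ => eventually_abs_val_le ω p (fun t h => by rw [hxv]; exact (ht t h).1) hf
      (half_pos hε)
  have e3 : ∀ᶠ n in (ω : Filter ℕ), ∀ p ∈ P, ∀ τ : TraceWeight A, ∀ hτ : p.Normed τ,
      p.val τ hτ (1 - f n * f n) ≤ ε := by
    rw [eventually_all_finset]
    intro p hp
    filter_upwards [eventually_val_le ω p (x := 1 - x * x) (by positivity : (0 : ℝ) ≤ ε / (2 * C))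
      (fun t h => by rw [map_sub, map_one, map_mul, hxv]; exact (ht t h).2.1) (f := 1 - f * f)
      (by rw [map_sub, map_one, map_mul, hf]; rfl) (half_pos hε)] with n hn τ hτ
    exact (by simpa using hn τ hτ : p.val τ hτ (1 - f n * f n) ≤ _).trans (hb p hp)
  have e4 : ∀ᶠ n in (ω : Filter ℕ), ∀ g ∈ S, ∀ p ∈ P, ∀ τ : TraceWeight A, ∀ hτ : p.Normed τ,
      p.val τ hτ ((extAction α g (f n) - f n) * (extAction α g (f n) - f n)) ≤ ε := by
    rw [eventually_all_finset]
    intro g hg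
    rw [eventually_all_finset]
    intro p hp
    let af := StarAlgHomClass.toStarAlgHom (extAction α g)
    filter_upwards [eventually_val_le ω p
      (x := (actC ω (extAction α) g x - x) * (actC ω (extAction α) g x - x))
      (by positivity : (0 : ℝ) ≤ ε / (2 * C))
      (fun t h => by rw [map_mul, map_sub, ← relAct_proj _ (inv_inrSet α), hxv]; exact (ht t h).2.2 g hg)
      (f := (bmap af f - f) * (bmap af f - f))
      (by rw [map_mul, map_sub, ← actU_cls, hf]; rfl) (half_pos hε)] with n hn τ hτ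
    exact (hn τ hτ).trans (hb p hp)
  obtain ⟨n, hn1, hn2, hn3, hn4⟩ := (e1.and (e2.and (e3.and e4))).exists
  have hu := (hfn n).1
  have hu1 := (hfn n).2
  have hle : f n ≤ 1 := hu.le_algebraMap_norm_self.trans
    (by simpa using algebraMap_mono (Unitization ℂ A) hu1)
  have hge : -f n ≤ 1 := hu.neg.le_algebraMap_norm_self.trans
    (by simpa using algebraMap_mono (Unitization ℂ A) ((norm_neg (f n)).trans_le hu1))
  have hsq : f n * f n ≤ 1 := (IsSelfAdjoint.of_nonneg hu.mul_self_nonneg).le_algebraMap_norm_self.trans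
    (by simpa using algebraMap_mono (Unitization ℂ A) ((norm_mul_le _ _).trans (mul_le_one₀ hu1 (norm_nonneg _) hu1)))
  refine ⟨f n, hu, hu1, hn1, fun p hp τ hτ => ⟨?_, ?_, fun g hg => ?_⟩⟩
  · rw [p.toReal_cut hτ (show (0 : Unitization ℂ A) ≤ 1 + f n by simpa [sub_neg_eq_add] using sub_nonneg.2 hge), p.toReal_cut hτ (sub_nonneg.2 hle),
      UnitPair.val_add, UnitPair.val_sub]
    rw [show p.val τ hτ 1 + p.val τ hτ (f n) - (p.val τ hτ 1 - p.val τ hτ (f n)) =
      2 * p.val τ hτ (f n) by ring, abs_mul, abs_two]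
    linarith [hn2 p hp τ hτ]
  · rw [p.toFun_cut hτ (sub_nonneg.2 hsq)]
    exact ENNReal.ofReal_le_ofReal (hn3 p hp τ hτ)
  · have hd : IsSelfAdjoint (extAction α g (f n) - f n) := (hu.map _).sub hu
    rw [p.toFun_cut hτ hd.mul_self_nonneg]
    exact ENNReal.ofReal_le_ofReal (hn4 g hg p hp τ hτ)

end

end Vale.P095.Nonunital
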