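import Vale.Agent.P095.Nonunital.WeightDefs
import Vale.Agent.P095.Nonunital.Statement

/-! # P095: the statement of the local equivariant uniform McDuff property -/

open Filter Topology

namespace Vale.P095.Nonunital

variable {A : Type*} [NonUnitalCStarAlgebra A]

/-- The defect of the unit relation. -/
noncomputable def unitDefect (x : Unitization ℂ A) : Unitization ℂ A :=
  star x * x + x * star x - 1

/-- `τ (b (star y * y) b) ≤ ε`. -/
def SmallBelow (p : UnitPair A) (τ : TraceWeight A) (ε : ℝ) (y : Unitization ℂ A) : Prop :=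
  τ.toFun (p.cut (star y * y)) ≤ ENNReal.ofReal ε

/-- The three defects of `x` are small below `b`, uniformly over the normalised weights. -/
def SmallDefects {G : Type*} (act : G → A → A) (p : UnitPair A) (S : Finset G) (ε : ℝ)
    (x : Unitization ℂ A) : Prop :=
  ∀ τ : TraceWeight A, τ.toFun (p.e * p.e) ≤ 1 →
    SmallBelow p τ ε (x * x) ∧ SmallBelow p τ ε (unitDefect x) ∧
      ∀ g ∈ S, SmallBelow p τ ε (extMap (act g) x - x)

/-- Nonunital form: finite data at a time. -/
def HasLocalMcDuff {G : Type*} (act : G → A → A) : Prop :=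
  ∀ (D : Finset A) (P : Finset (UnitPair A)) (S : Finset G) (ε : ℝ), 0 < ε →
    ∃ x : Unitization ℂ A, ‖x‖ ≤ 1 ∧
      (∀ a ∈ D, ‖x * (a : Unitization ℂ A) - (a : Unitization ℂ A) * x‖ ≤ ε) ∧
      ∀ p ∈ P, SmallDefects act p S ε x

end Vale.P095.Nonunital
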