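import Vale.Agent.P095.Nonunital.QuotStar
import Vale.Agent.P095.Nonunital.Reindex

/-!
# P095: the relative central sequence algebra `F(I)`

For a separable unital `B` and a set `I ⊆ B` (meant: the ideal `A ⊆ Unitization ℂ A`), `RelF B ω I` is
`(B_ω ∩ B') / Ann(I)`.  An action fixing `I` setwise descends, and so do equivariant copies.
-/

open scoped BoundedContinuousFunction
open Filter Topology

namespace Vale.P095.Nonunital

open Vale.P101

noncomputable section

variable (B : Type*) [CStarAlgebra B] (ω : Ultrafilter ℕ) (I : Set B)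

/-- The annihilator of `I` in the central sequence algebra. -/
def annIdeal : CIdeal (Central B ω) where
  toIdeal :=
    { carrier := {x | ∀ a ∈ I, (x : Ultrapower B ω) * constSeq ω a = 0 ∧
        (x : Ultrapower B ω) * constSeq ω (star a) = 0}
      add_mem' := fun {x y} hx hy a ha => by
        refine ⟨?_, ?_⟩
        · show ((x : Ultrapower B ω) + y) * _ = 0
          rw [add_mul, (hx a ha).1, (hy a ha).1, add_zero]
        · show ((x : Ultrapower B ω) + y) * _ = 0
          rw [add_mul, (hx a ha).2, (hy a ha).2, add_zero]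
      zero_mem' := fun a _ => ⟨zero_mul _, zero_mul _⟩
      smul_mem' := fun c x hx a ha => by
        refine ⟨?_, ?_⟩
        · show ((c : Ultrapower B ω) * x) * _ = 0
          rw [mul_assoc, (hx a ha).1, mul_zero]
        · show ((c : Ultrapower B ω) * x) * _ = 0
          rw [mul_assoc, (hx a ha).2, mul_zero] }
  right_mem x y hx a ha := by
    refine ⟨?_, ?_⟩
    · show ((x : Ultrapower B ω) * y) * _ = 0
      rw [mul_assoc, ← ((mem_central ω).1 y.2 a).eq, ← mul_assoc, (hx a ha).1, zero_mul]
    · show ((x : Ultrapower B ω) * y) * _ = 0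
      rw [mul_assoc, ← ((mem_central ω).1 y.2 (star a)).eq, ← mul_assoc, (hx a ha).2, zero_mul]
  star_mem x hx a ha := by
    have key : ∀ b : B, (x : Ultrapower B ω) * constSeq ω (star b) = 0 →
        (star x : Ultrapower B ω) * constSeq ω b = 0 := fun b hb => by
      apply star_injective
      rw [star_mul, star_star, star_zero, star_cls]
      rw [show star (BoundedContinuousFunction.const ℕ b) = BoundedContinuousFunction.const ℕ (star b)
        from rfl, ((mem_central ω).1 x.2 (star b)).eq]
      exact hb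
    exact ⟨key a (hx a ha).2, key (star a) (by rw [star_star]; exact (hx a ha).1)⟩
  closed := by
    have : {x : Central B ω | ∀ a ∈ I, (x : Ultrapower B ω) * constSeq ω a = 0 ∧
        (x : Ultrapower B ω) * constSeq ω (star a) = 0} =
        ⋂ a ∈ I, {x : Central B ω | (x : Ultrapower B ω) * constSeq ω a = 0} ∩
          {x : Central B ω | (x : Ultrapower B ω) * constSeq ω (star a) = 0} := by
      ext x
      simp
    show IsClosed {x : Central B ω | ∀ a ∈ I, (x : Ultrapower B ω) * constSeq ω a = 0 ∧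
        (x : Ultrapower B ω) * constSeq ω (star a) = 0}
    rw [this]
    exact isClosed_biInter fun a _ =>
      (isClosed_eq (continuous_subtype_val.mul continuous_const) continuous_const).inter
        (isClosed_eq (continuous_subtype_val.mul continuous_const) continuous_const)

theorem mem_annIdeal {x : Central B ω} : x ∈ (annIdeal B ω I).toIdeal ↔
    ∀ a ∈ I, (x : Ultrapower B ω) * constSeq ω a = 0 ∧
      (x : Ultrapower B ω) * constSeq ω (star a) = 0 := Iff.rfl

/-- The relative central sequence algebra `(B_ω ∩ B') / Ann(I)`. -/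
def RelF : Type _ := (annIdeal B ω I).Quo

noncomputable instance : CStarAlgebra (RelF B ω I) :=
  CIdeal.instCStarAlgebraQuo (annIdeal B ω I)

instance subringClassRelF : SubringClass (StarSubalgebra ℂ (RelF B ω I)) (RelF B ω I) :=
  StarSubalgebra.subringClass

/-- The quotient map. -/
def relProj : Central B ω →⋆ₐ[ℂ] RelF B ω I := (annIdeal B ω I).proj

theorem relProj_surjective : Function.Surjective (relProj B ω I) :=
  (annIdeal B ω I).proj_surjective

theorem relProj_eq_zero {x : Central B ω} :
    relProj B ω I x = 0 ↔ x ∈ (annIdeal B ω I).toIdeal := (annIdeal B ω I).proj_eq_zero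

theorem continuous_relProj : Continuous (relProj B ω I) :=
  AddMonoidHomClass.continuous_of_bound (relProj B ω I) 1 fun x => by
    rw [one_mul]; exact NonUnitalStarAlgHom.norm_apply_le (relProj B ω I) x

variable {B ω I}
variable {G : Type*} [Group G] (α : G →* (B ≃⋆ₐ[ℂ] B))

/-- `I` is invariant. -/
def InvSet (I : Set B) : Prop := ∀ g, ∀ a ∈ I, α g a ∈ I

variable (hI : InvSet α I)

theorem actC_mem_ann (hI : InvSet α I) (g : G) {x : Central B ω}
    (hx : x ∈ (annIdeal B ω I).toIdeal) : actC ω α g x ∈ (annIdeal B ω I).toIdeal := by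
  intro a ha
  have hb := hx _ (hI g⁻¹ a ha)
  have e : α g (α g⁻¹ a) = a := by
    rw [← StarAlgEquiv.mul_apply, ← map_mul, mul_inv_cancel, map_one]; rfl
  have key : ∀ b : B, (x : Ultrapower B ω) * constSeq ω b = 0 →
      (actC ω α g x : Ultrapower B ω) * constSeq ω (α g b) = 0 := fun b hb => by
    have h := congrArg (actU ω α g) hb
    rw [map_mul, map_zero, actU, mapU_constSeq] at h
    exact h
  refine ⟨?_, ?_⟩
  · conv_lhs => rw [← e]
    exact key _ hb.1
  · conv_lhs => rw [← e, ← map_star (α g)]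
    exact key _ hb.2

/-- The descended action. -/
def relAct (hI : InvSet α I) (g : G) : RelF B ω I →⋆ₐ[ℂ] RelF B ω I :=
  Classical.choose (exists_desc (relProj B ω I) (relProj_surjective B ω I)
    ((relProj B ω I).comp (actC ω α g)) fun x hx =>
      (relProj_eq_zero B ω I).2 (actC_mem_ann α hI g ((relProj_eq_zero B ω I).1 hx)))

theorem relAct_proj (hI : InvSet α I) (g : G) (x : Central B ω) :
    relAct α hI g (relProj B ω I x) = relProj B ω I (actC ω α g x) :=
  Classical.choose_spec (exists_desc (relProj B ω I) (relProj_surjective B ω I)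
    ((relProj B ω I).comp (actC ω α g)) fun x hx =>
      (relProj_eq_zero B ω I).2 (actC_mem_ann α hI g ((relProj_eq_zero B ω I).1 hx))) x

theorem relAct_one (hI : InvSet α I) (y : RelF B ω I) : relAct α hI 1 y = y := by
  obtain ⟨x, rfl⟩ := relProj_surjective B ω I y
  rw [relAct_proj, actC_one]

theorem relAct_mul (hI : InvSet α I) (g h : G) (y : RelF B ω I) :
    relAct α hI (g * h) y = relAct α hI g (relAct α hI h y) := by
  obtain ⟨x, rfl⟩ := relProj_surjective B ω I y
  rw [relAct_proj, relAct_proj, relAct_proj, actC_mul]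

/-- A norm decreasing homomorphism on a dense subalgebra extends to its closure. -/
theorem exists_extend_closure {E : Type*} [CStarAlgebra E] (T : StarSubalgebra ℂ E)
    (ρ : T →⋆ₐ[ℂ] E) (hρ : ∀ b, ‖ρ b‖ ≤ ‖(b : E)‖) :
    ∃ σ : T.topologicalClosure →⋆ₐ[ℂ] E, Continuous σ ∧
      ∀ b : T, σ (StarSubalgebra.inclusion T.le_topologicalClosure b) = ρ b := by
  let i : T →⋆ₐ[ℂ] T.topologicalClosure := StarSubalgebra.inclusion T.le_topologicalClosure
  have hid : DenseRange i := by
    intro x
    rw [closure_subtype, ← Set.range_comp]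
    refine closure_mono ?_ x.2
    intro y hy
    exact ⟨⟨y, hy⟩, rfl⟩
  let σ₀ : T.topologicalClosure →L[ℂ] E :=
    (ρ.toAlgHom.toLinearMap).extendOfNorm (i.toAlgHom.toLinearMap)
  have hσ : ∀ b, σ₀ (i b) = ρ b := fun b =>
    LinearMap.extendOfNorm_eq hid ⟨1, fun x => by rw [one_mul]; exact hρ x⟩ b
  refine ⟨{ toFun := σ₀
            map_one' := by rw [← map_one i, hσ, map_one]
            map_mul' := fun x y => ?_
            map_zero' := map_zero σ₀
            map_add' := map_add σ₀
            commutes' := fun c => by rw [← AlgHomClass.commutes i, hσ, AlgHomClass.commutes]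
            map_star' := fun x => ?_ }, σ₀.continuous, hσ⟩
  · refine hid.induction_on₂ (p := fun x y => σ₀ (x * y) = σ₀ x * σ₀ y) ?_ ?_ x y
    · exact isClosed_eq (σ₀.continuous.comp continuous_mul)
        ((σ₀.continuous.comp continuous_fst).mul (σ₀.continuous.comp continuous_snd))
    · intro a b
      rw [← map_mul, hσ, hσ, hσ, map_mul]
  · show σ₀ (star x) = star (σ₀ x)
    refine hid.induction_on (p := fun x => σ₀ (star x) = star (σ₀ x)) x ?_ ?_
    · exact isClosed_eq (σ₀.continuous.comp (continuous_subtype_val.star.subtype_mk _)) σ₀.continuous.star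
    · intro a
      rw [← map_star, hσ, hσ, map_star]

/-- A copy which does not increase the products with constants is contractive modulo `Ann(I)`. -/
theorem norm_relProj_le (T : StarSubalgebra ℂ (Central B ω)) (ρ : T →⋆ₐ[ℂ] Central B ω)
    (h2 : ∀ b, ‖ρ b‖ ≤ ‖(b : Central B ω)‖)
    (h3 : ∀ b (a : B), ‖(ρ b : Ultrapower B ω) * constSeq ω a‖ ≤
        ‖((b : Central B ω) : Ultrapower B ω) * constSeq ω a‖) (x : T) :
    ‖relProj B ω I (ρ x)‖ ≤ ‖relProj B ω I x‖ := by
  obtain ⟨σ, hσc, hσ⟩ := exists_extend_closure T ρ h2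
  have hid : DenseRange (StarSubalgebra.inclusion T.le_topologicalClosure) := by
    intro x
    rw [closure_subtype, ← Set.range_comp]
    refine closure_mono ?_ x.2
    intro y hy
    exact ⟨⟨y, hy⟩, rfl⟩
  have key : ∀ (y : T.topologicalClosure) (c : B), ‖(σ y : Ultrapower B ω) * constSeq ω c‖ ≤
      ‖((y : Central B ω) : Ultrapower B ω) * constSeq ω c‖ := fun y c => by
    refine hid.induction_on (p := fun y : T.topologicalClosure =>
      ‖(σ y : Ultrapower B ω) * constSeq ω c‖ ≤
        ‖((y : Central B ω) : Ultrapower B ω) * constSeq ω c‖) y ?_ ?_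
    · exact isClosed_le ((continuous_subtype_val.comp hσc).mul continuous_const).norm
        ((continuous_subtype_val.comp continuous_subtype_val).mul continuous_const).norm
    · intro b
      rw [hσ]
      exact h3 b c
  have hσann : ∀ y : T.topologicalClosure, (y : Central B ω) ∈ (annIdeal B ω I).toIdeal →
      σ y ∈ (annIdeal B ω I).toIdeal := fun y hy a ha => by
    refine ⟨norm_le_zero_iff.1 ((key y a).trans ?_), norm_le_zero_iff.1 ((key y _).trans ?_)⟩
    · rw [(hy a ha).1, norm_zero]
    · rw [(hy a ha).2, norm_zero]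
  have hcl : IsClosed ((T.topologicalClosure : StarSubalgebra ℂ (Central B ω)) :
      Set (Central B ω)) := isClosed_closure
  have h := (annIdeal B ω I).norm_proj_map_le T.topologicalClosure hcl σ hσann
    (StarSubalgebra.inclusion T.le_topologicalClosure x)
  rw [hσ] at h
  exact h

/-- Equivariant copies descend. -/
theorem eqCopyProp_relF [Countable G] [TopologicalSpace.SeparableSpace B]
    (hω : (ω : Filter ℕ) ≤ cofinite) (hI : InvSet α I) :
    EqCopyProp (fun g => relAct (ω := ω) α hI g) := by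
  intro s t hs ht hst
  choose lift hlift using relProj_surjective B ω I
  let s₁ : Set (Central B ω) := ⋃ g : G, actC ω α g '' (lift '' s)
  have hs₁ : s₁.Countable := Set.countable_iUnion fun g => (hs.image _).image _
  have hinv : ∀ g, ∀ b ∈ s₁, actC ω α g b ∈ s₁ := fun g b hb => by
    obtain ⟨h, d, hd, rfl⟩ := Set.mem_iUnion.1 hb
    exact Set.mem_iUnion.2 ⟨g * h, d, hd, actC_mul ω α g h d⟩
  obtain ⟨ρ, h1, h2, h3, h4⟩ := exists_copy_weighted α hω hs₁ (ht.image lift) hinv
  let q := relProj B ω I
  -- the copy on `gen s`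
  have hsL : ∀ b ∈ s, ∃ x : gen s₁, q x = b := fun b hb =>
    ⟨⟨lift b, StarAlgebra.subset_adjoin ℂ s₁
      (Set.mem_iUnion.2 ⟨1, lift b, ⟨b, hb, rfl⟩, actC_one ω α _⟩)⟩, hlift b⟩
  have hq₁ : ∀ x ∈ s₁, q x ∈ s := fun x hx => by
    obtain ⟨g, _, ⟨b, hb, rfl⟩, rfl⟩ := Set.mem_iUnion.1 hx
    have := hst g b hb
    rw [← hlift b] at this
    exact (relAct_proj α hI g (lift b)) ▸ this
  have hmap : (gen s₁).map q = gen s := by
    rw [show (gen s₁).map q = StarAlgebra.adjoin ℂ (q '' s₁) from StarAlgHom.map_adjoin _ _]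
    refine congrArg _ (Set.Subset.antisymm (by rintro _ ⟨x, hx, rfl⟩; exact hq₁ x hx) fun b hb => ?_)
    exact ⟨lift b, Set.mem_iUnion.2 ⟨1, lift b, ⟨b, hb, rfl⟩, actC_one ω α _⟩, hlift b⟩
  let π : gen s₁ →⋆ₐ[ℂ] gen s := (q.comp (gen s₁).subtype).codRestrict (gen s) fun x =>
    hmap ▸ (⟨x, x.2, rfl⟩ : q (x : Central B ω) ∈ (gen s₁).map q)
  have hπ : Function.Surjective π := fun b => by
    have : (b : RelF B ω I) ∈ (gen s₁).map q := by rw [hmap]; exact b.2
    obtain ⟨x, hx, hxb⟩ := this
    exact ⟨⟨x, hx⟩, Subtype.ext hxb⟩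
  have hb' : ∀ x : gen s₁, ‖q (ρ x)‖ ≤ ‖q x‖ := norm_relProj_le (gen s₁) ρ h2 h3
  obtain ⟨τ, hτ⟩ := exists_desc (L := gen s₁) (B := gen s) (E := RelF B ω I) π hπ (q.comp ρ) fun (x : gen s₁) (hx : π x = 0) => by
    have h0 : q (x : Central B ω) = 0 := congrArg (fun z : gen s => (z : RelF B ω I)) hx
    have := hb' x
    rw [h0, norm_zero] at this
    exact norm_le_zero_iff.1 this
  refine ⟨τ, fun b c hc => ?_, fun b => ?_, fun g b c hc => ?_⟩
  · obtain ⟨x, rfl⟩ := hπ b
    rw [hτ]
    conv => rw [show c = q (lift c) from (hlift c).symm]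
    exact (h1 x (lift c) ⟨c, hc, rfl⟩).map q
  · obtain ⟨x, rfl⟩ := hπ b
    rw [hτ]
    exact hb' x
  · obtain ⟨x, rfl⟩ := hπ b
    have hgx : actC ω α g x ∈ gen s₁ := by
      have : actC ω α g x ∈ (gen s₁).map (actC ω α g) := ⟨x, x.2, rfl⟩
      rw [StarAlgHom.map_adjoin] at this
      refine StarAlgebra.adjoin_le ?_ this
      rintro _ ⟨y, hy, rfl⟩
      exact StarAlgebra.subset_adjoin ℂ s₁ (hinv g y hy)
    have hc' : c = π ⟨actC ω α g x, hgx⟩ := Subtype.ext (by
      rw [hc]
      exact (relAct_proj α hI g (x : Central B ω)))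
    rw [hc', hτ, hτ]
    show q (ρ ⟨actC ω α g x, hgx⟩) = relAct α hI g (q (ρ x))
    rw [relAct_proj, h4 g x ⟨actC ω α g x, hgx⟩ rfl]

end

end Vale.P095.Nonunital
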